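import Vale.Agent.P167.R2.H68.Model

/-!
# P167: consequences (comparison, edge weights at the wired set, adjacent edges), `q ≤ 1`
-/

namespace Vale.Agent.P167.R2.H68

open Finset

section edges

variable {V E : Type*} [Fintype V] [DecidableEq V] [Fintype E] [DecidableEq E] {l r : E → V}

omit [Fintype E] [DecidableEq E] in
/-- an open edge from outside `D` to `y` removes `y` from `D` -/
theorem val_merge (q : ℝ) (T D : Finset V) (s : Setoid V) {x y : V} (hx : x ∉ D) :
    val q T D (merge s x y) = val q T (D.erase y) s := by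
  classical
  have hcond : (∃ t ∈ T, ∃ z, z ∉ D ∧ merge s x y t z) ↔
      ∃ t ∈ T, ∃ z, z ∉ D.erase y ∧ s t z := by
    constructor
    · rintro ⟨t, ht, z, hz, h | ⟨h, _⟩ | ⟨h, _⟩⟩
      · exact ⟨t, ht, z, fun h1 => hz (mem_of_mem_erase h1), h⟩
      · exact ⟨t, ht, x, fun h1 => hx (mem_of_mem_erase h1), h⟩
      · exact ⟨t, ht, y, notMem_erase y D, h⟩
    · rintro ⟨t, ht, z, hz, h⟩
      by_cases hzy : z = y
      · subst hzy
        exact ⟨t, ht, x, hx, Or.inr (Or.inr ⟨h, s.refl x⟩)⟩
      · exact ⟨t, ht, z, fun h1 => hz (mem_erase.2 ⟨hzy, h1⟩), Or.inl h⟩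
  have hmiss : miss ((Dᶜ : Finset V) : Set V) (merge s x y) =
      miss (((D.erase y)ᶜ : Finset V) : Set V) s := by
    set F : Finset (Finset V) := ((univ : Finset V).image (cls s)).filter
      (fun C => C ⊆ D.erase y) with hF
    have h1 : ∀ u, cls s u ⊆ D.erase y → cls (merge s x y) u = cls s u := by
      intro u hu
      ext v
      rw [mem_cls, mem_cls]
      constructor
      · rintro (h | ⟨h, _⟩ | ⟨h, _⟩)
        · exact h
        · exact absurd (mem_of_mem_erase (hu (mem_cls.2 h))) hx
        · exact absurd (hu (mem_cls.2 h)) (notMem_erase y D)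
      · exact Or.inl
    have h2 : miss (((D.erase y)ᶜ : Finset V) : Set V) s = F.card := by
      refine ncard_eq_of_cls _ _ _ (fun u => ?_) fun C hC => ?_
      · rw [mem_missSet, hF, mem_filter]
        constructor
        · intro h
          refine ⟨mem_image_of_mem _ (mem_univ u), fun v hv => ?_⟩
          by_contra hcon
          exact h v (mem_compl.2 hcon) (s.symm (mem_cls.1 hv))
        · rintro ⟨_, h⟩ k hk hku
          have hk' : k ∉ D.erase y := mem_compl.1 hk
          exact hk' (h (mem_cls.2 (s.symm hku)))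
      · obtain ⟨u, _, rfl⟩ := mem_image.1 (mem_filter.1 hC).1
        exact ⟨u, rfl⟩
    rw [h2]
    refine ncard_eq_of_cls _ _ _ (fun u => ?_) fun C hC => ?_
    · rw [mem_missSet]
      constructor
      · intro h
        have hsub : cls s u ⊆ D.erase y := by
          intro v hv
          have hv' := mem_cls.1 hv
          rw [mem_erase]
          constructor
          · rintro rfl
            exact h x (mem_compl.2 hx) (Or.inr (Or.inl ⟨s.refl x, s.symm hv'⟩))
          · by_contra hcon
            exact h v (mem_compl.2 hcon) (Or.inl (s.symm hv'))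
        rw [h1 u hsub, hF, mem_filter]
        exact ⟨mem_image_of_mem _ (mem_univ u), hsub⟩
      · intro h k hk hku
        rw [hF, mem_filter] at h
        have hk' : k ∉ D := mem_compl.1 hk
        exact hk' (mem_of_mem_erase (h.2 (mem_cls.2 ((merge s x y).symm hku))))
    · obtain ⟨u, _, rfl⟩ := mem_image.1 (mem_filter.1 hC).1
      exact ⟨u, (h1 u (mem_filter.1 hC).2).symm⟩
  rw [val, val, hmiss]
  by_cases h : ∃ t ∈ T, ∃ z, z ∉ D ∧ merge s x y t z
  · rw [if_pos h, if_pos (hcond.1 h)]
  · rw [if_neg h, if_neg fun h' => h (hcond.2 h')]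

omit [Fintype V] [DecidableEq V] [Fintype E] in
theorem con_insert_eq {e : E} {x y : V} (h : (l e = x ∧ r e = y) ∨ (l e = y ∧ r e = x))
    (A : Finset E) : con l r (insert e A) = merge (con l r A) x y := by
  rcases h with ⟨rfl, rfl⟩ | ⟨rfl, rfl⟩
  · rw [con_insert, merge_eq, sup_comm]
  · rw [con_insert, merge_comm, merge_eq, sup_comm]

/-- the weights with one edge removed -/
def off (w : E → ℝ) (e : E) : E → ℝ := fun f => if f = e then 0 else w f

/-- the sum over the configurations in which `e` is open -/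
noncomputable def fkOn (l r : E → V) (w : E → ℝ) (q : ℝ) (T D : Finset V) (e : E) : ℝ :=
  ∑ A ∈ univ.filter (fun A => e ∈ A), (∏ f ∈ A, w f) * val q T D (con l r A)

omit [Fintype V] [DecidableEq V] [Fintype E] in
theorem prod_off {w : E → ℝ} {e : E} {A : Finset E} (h : e ∉ A) :
    ∏ f ∈ A, off w e f = ∏ f ∈ A, w f := by
  refine prod_congr rfl fun f hf => ?_
  rw [off, if_neg]
  rintro rfl
  exact h hf

omit [Fintype V] [DecidableEq V] in
theorem sum_off (w : E → ℝ) (e : E) (g : Finset E → ℝ) :
    ∑ A : Finset E, (∏ f ∈ A, off w e f) * g A =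
      ∑ A ∈ univ.filter (fun A => e ∉ A), (∏ f ∈ A, w f) * g A := by
  rw [sum_filter]
  refine sum_congr rfl fun A _ => ?_
  by_cases h : e ∈ A
  · rw [if_neg (not_not_intro h), prod_eq_zero h, zero_mul]
    rw [off, if_pos rfl]
  · rw [if_pos h, prod_off h]

/-- an edge with one end outside `D` -/
theorem fkOn_eq (w : E → ℝ) (q : ℝ) (T D : Finset V) {e : E} {x y : V}
    (h : (l e = x ∧ r e = y) ∨ (l e = y ∧ r e = x)) (hx : x ∉ D) :
    fkOn l r w q T D e = w e * fk l r (off w e) q T (D.erase y) := by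
  rw [fk, sum_off, fkOn, mul_sum]
  refine sum_nbij' (fun A => A.erase e) (fun A => insert e A) ?_ ?_ ?_ ?_ ?_
  · intro A _
    rw [mem_filter]
    exact ⟨mem_univ _, notMem_erase e A⟩
  · intro A _
    rw [mem_filter]
    exact ⟨mem_univ _, mem_insert_self e A⟩
  · intro A hA
    exact insert_erase (mem_filter.1 hA).2
  · intro A hA
    exact erase_insert (mem_filter.1 hA).2
  · intro A hA
    have hA' := (mem_filter.1 hA).2
    have h1 : con l r A = merge (con l r (A.erase e)) x y := by
      rw [← con_insert_eq h, insert_erase hA']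
    rw [h1, val_merge q T D _ hx, ← mul_prod_erase A w hA']
    ring

theorem fk_split (w : E → ℝ) (q : ℝ) (T D : Finset V) {e : E} {x y : V}
    (h : (l e = x ∧ r e = y) ∨ (l e = y ∧ r e = x)) (hx : x ∉ D) :
    fk l r w q T D = fk l r (off w e) q T D + w e * fk l r (off w e) q T (D.erase y) := by
  rw [← fkOn_eq w q T D h hx, fk, ← sum_filter_add_sum_filter_not univ (fun A => e ∈ A),
    add_comm, fkOn]
  congr 1
  rw [fk, sum_off]

omit [Fintype E] in
theorem off_nonneg {w : E → ℝ} (hw : ∀ e, 0 ≤ w e) (e : E) : ∀ f, 0 ≤ off w e f := by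
  intro f
  rw [off]
  split_ifs
  · exact le_rfl
  · exact hw f

/-- monotonicity of the functional in `D` -/
theorem fk_mono {q : ℝ} (hq : 0 < q) (hq1 : q ≤ 1) {w : E → ℝ} (hw : ∀ e, 0 ≤ w e)
    (T : Finset V) {D D' : Finset V} (h : D ⊆ D') :
    fk l r w q T D / fk l r w q ∅ D ≤ fk l r w q T D' / fk l r w q ∅ D' :=
  (tmon_fk (a := l) (b := r) hq hq1 hw T).le h (subset_univ _)

/-- one edge at the outside of `D`: the probability to miss `T` decreases with its weight -/
theorem fk_edge {q : ℝ} (hq : 0 < q) (hq1 : q ≤ 1) {w w' : E → ℝ} (hw : ∀ e, 0 ≤ w e)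
    {e : E} (hww' : w e ≤ w' e) (hrest : ∀ f, f ≠ e → w f = w' f) {x y : V}
    (h : (l e = x ∧ r e = y) ∨ (l e = y ∧ r e = x)) (T : Finset V) {D : Finset V}
    (hx : x ∉ D) :
    fk l r w' q T D / fk l r w' q ∅ D ≤ fk l r w q T D / fk l r w q ∅ D := by
  have hoff : off w' e = off w e := by
    funext f
    rw [off, off]
    split_ifs with hf
    · rfl
    · exact (hrest f hf).symm
  rw [fk_split w q T D h hx, fk_split w q ∅ D h hx, fk_split w' q T D h hx,
    fk_split w' q ∅ D h hx, hoff]
  have h0 := off_nonneg hw e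
  have hb0 : 0 < fk l r (off w e) q ∅ D := fk_pos hq h0 D
  have hb1 : 0 < fk l r (off w e) q ∅ (D.erase y) := fk_pos hq h0 _
  have hm := fk_mono (l := l) (r := r) hq hq1 h0 T (erase_subset y D)
  rw [div_le_div_iff₀ hb1 hb0] at hm
  have hwe := hw e
  have hwe' : 0 ≤ w' e := hwe.trans hww'
  rw [div_le_div_iff₀ (by positivity) (by positivity)]
  nlinarith [mul_nonneg (sub_nonneg.2 hww') (sub_nonneg.2 hm)]

/-- the ratio inequality behind the negative correlation of adjacent edges -/
theorem fk_four {q : ℝ} (hq : 0 < q) (hq1 : q ≤ 1) {w : E → ℝ} (hw : ∀ e, 0 ≤ w e)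
    (D : Finset V) (x y : V) :
    fk l r w q ∅ ((D.erase y).erase x) * fk l r w q ∅ D ≤
      fk l r w q ∅ (D.erase x) * fk l r w q ∅ (D.erase y) := by
  have hs : 0 ≤ 1 - q := by linarith
  have hs1 : 1 - q ≤ 1 := by linarith
  have hqs : q = 1 - (1 - q) := by ring
  have h1 := (tmon_erase (XX_pos (a := l) (b := r) hq hw)
    (cc_nonneg (a := l) (b := r) hq hs hs1 hw)
    (fun D x hx => XX_rec q (1 - q) hqs hw D x hx) univ x).le (erase_subset y D)
    (subset_univ _)
  have hz := zz_pos hw (univ : Finset E)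
  beta_reduce at h1
  simp only [XX] at h1
  rw [div_div_div_cancel_right₀ hz.ne', div_div_div_cancel_right₀ hz.ne',
    div_le_div_iff₀ (fk_pos hq hw _) (fk_pos hq hw _)] at h1
  exact h1

end edges

end Vale.Agent.P167.R2.H68
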