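import Vale.Agent.P167.R2.H68.Exp

/-!
# P167: total monotonicity of the hitting functional of the wired cluster, cluster weight `q ≤ 1`
-/

namespace Vale.Agent.P167.R2.H68

open Finset

variable {V : Type*} [Fintype V] [DecidableEq V] {ι : Type*} [Fintype ι] [DecidableEq ι]
  {a b : ι → V} {w : ι → ℝ}

/-- multiplicativity of the pair sums -/
theorem gH_union (v : ι → ℝ) (q s : ℝ) {T' R B : Finset V} (hT' : T' ⊆ R) (hR : R ⊆ B)
    {H₁ H₂ : Finset ι} (h1 : H₁ ⊆ ins a b R) (h2 : H₂ ⊆ ins a b (B \ R)) :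
    gH a b v (phi q s T') B (H₁ ∪ H₂) =
      gH a b v (phi q s T') R H₁ * gH a b v (phi q s ∅) (B \ R) H₂ := by
  have hd : Disjoint (ins a b R) (ins a b (B \ R)) := disjoint_ins disjoint_sdiff
  have hd' : Disjoint H₁ H₂ := hd.mono h1 h2
  rw [gH, sum_powerset_union hd', gH, gH, sum_mul_sum]
  refine sum_congr rfl fun A₁ hA₁ => sum_congr rfl fun A₂ hA₂ => ?_
  rw [mem_powerset] at hA₁ hA₂
  have h3 := prodCls_con_union (phi q s T') (disjoint_sdiff (s := R) (t := B))
    (hA₁.trans h1) (hA₂.trans h2)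
  rw [union_sdiff_of_subset hR] at h3
  have h4 : prodCls (phi q s T') (con a b A₂) (B \ R) =
      prodCls (phi q s ∅) (con a b A₂) (B \ R) := by
    rw [prodCls, prodCls]
    refine prod_congr rfl fun C hC => ?_
    obtain ⟨x, hx, rfl⟩ := mem_image.1 hC
    have h5 : Disjoint (cls (con a b A₂) x) T' := by
      rw [disjoint_left]
      intro y hy hyT
      have h6 : y ∈ ((B \ R : Finset V) : Set V) := by
        refine con_mem (fun e he => ?_) (mem_cls.1 hy) hx
        have h7 := mem_ins.1 (h2 (hA₂ he))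
        exact iff_of_true h7.1 h7.2
      exact (mem_sdiff.1 h6).2 (hT' hyT)
    rw [phi, phi, if_pos h5, if_pos (disjoint_empty_right _)]
  rw [prod_union (hd'.mono hA₁ hA₂), h3, h4]
  ring

open Classical in
/-- the anchored sums -/
noncomputable def delta (a b : ι → V) (w : ι → ℝ) (φ : Finset V → ℝ) (T R : Finset V) : ℝ :=
  ∑ H ∈ (ins a b R).powerset.filter (fun H => Anch a b T R H),
    (∏ e ∈ H, w e) * gH a b (fun e => 1 + w e) φ R H

/-- grouping of the pair sums -/
theorem beta_group (q s : ℝ) {T' T B : Finset V} (hT' : T' ⊆ T) (hT : T ⊆ B) :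
    beta a b w (phi q s T') B = ∑ R ∈ B.powerset.filter (fun R => T ⊆ R),
      delta a b w (phi q s T') T R * beta a b w (phi q s ∅) (B \ R) := by
  classical
  rw [beta, sum_group hT]
  refine sum_congr rfl fun R hR => ?_
  rw [mem_filter, mem_powerset] at hR
  rw [delta, beta, sum_mul_sum]
  refine sum_congr (by congr) fun H₁ hH₁ => sum_congr rfl fun H₂ hH₂ => ?_
  rw [mem_filter, mem_powerset] at hH₁
  rw [mem_powerset] at hH₂
  have hd : Disjoint (ins a b R) (ins a b (B \ R)) := disjoint_ins disjoint_sdiff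
  rw [prod_union (hd.mono hH₁.1 hH₂), gH_union _ q s (hT'.trans hR.2) hR.1 hH₁.1 hH₂]
  ring

/-- the vertex factors -/
noncomputable def mu (a b : ι → V) (w : ι → ℝ) (B : Finset V) : ℝ :=
  ∏ e : ι, (if a e ∈ B then (1 + w e)⁻¹ else 1) * (if b e ∈ B then (1 + w e)⁻¹ else 1)

omit [Fintype V] [DecidableEq ι] in
theorem mu_pos (hw : ∀ e, 0 ≤ w e) (B : Finset V) : 0 < mu a b w B := by
  refine prod_pos fun e _ => ?_
  have h1 : 0 < 1 + w e := by linarith [hw e]
  split_ifs <;> positivity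

omit [Fintype V] [DecidableEq ι] in
theorem mu_split {R B : Finset V} (hR : R ⊆ B) :
    mu a b w B = mu a b w R * mu a b w (B \ R) := by
  rw [mu, mu, mu, ← prod_mul_distrib]
  refine prod_congr rfl fun e _ => ?_
  have h : ∀ x : V, (if x ∈ B then (1 + w e)⁻¹ else 1) =
      (if x ∈ R then (1 + w e)⁻¹ else 1) * (if x ∈ B \ R then (1 + w e)⁻¹ else 1) := by
    intro x
    by_cases h1 : x ∈ R
    · rw [if_pos (hR h1), if_pos h1, if_neg (by rw [mem_sdiff]; tauto), mul_one]
    · by_cases h2 : x ∈ B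
      · rw [if_pos h2, if_neg h1, if_pos (mem_sdiff.2 ⟨h2, h1⟩), one_mul]
      · rw [if_neg h2, if_neg h1, if_neg (by rw [mem_sdiff]; tauto), mul_one]
  rw [h (a e), h (b e)]
  ring

omit [Fintype ι] [DecidableEq ι] in
theorem zz_pos (hw : ∀ e, 0 ≤ w e) (E : Finset ι) : 0 < zz w E :=
  prod_pos fun e _ => by linarith [hw e]

omit [DecidableEq ι] in
theorem zz_mu (hw : ∀ e, 0 ≤ w e) (B : Finset V) :
    zz w (ins a b Bᶜ) / zz w (ins a b B) = zz w univ * mu a b w B := by
  rw [div_eq_iff (zz_pos hw _).ne', zz, zz, zz, mu]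
  have h1 : ∀ B' : Finset V, ∏ e ∈ ins a b B', (1 + w e) =
      ∏ e : ι, if a e ∈ B' ∧ b e ∈ B' then 1 + w e else 1 := by
    intro B'
    rw [ins, prod_filter]
  rw [h1, h1, ← prod_mul_distrib, ← prod_mul_distrib]
  refine prod_congr rfl fun e _ => ?_
  have h2 : 1 + w e ≠ 0 := by linarith [hw e]
  simp only [mem_compl]
  by_cases h3 : a e ∈ B <;> by_cases h4 : b e ∈ B <;> simp [h3, h4] <;> field_simp

omit [Fintype V] in
/-- double sums over `T ⊆ R ⊆ B ⊆ D` -/
theorem sum_sum_split {D T : Finset V} (f : Finset V → Finset V → ℝ) :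
    ∑ B ∈ D.powerset.filter (fun B => T ⊆ B), ∑ R ∈ B.powerset.filter (fun R => T ⊆ R),
        f R (B \ R) =
      ∑ R ∈ D.powerset.filter (fun R => T ⊆ R), ∑ B' ∈ (D \ R).powerset, f R B' := by
  rw [sum_sigma', sum_sigma']
  refine sum_nbij' (fun x => ⟨x.2, x.1 \ x.2⟩) (fun x => ⟨x.1 ∪ x.2, x.1⟩) ?_ ?_ ?_ ?_ ?_
  · rintro ⟨B, R⟩ h
    simp only [mem_sigma, mem_filter, mem_powerset] at h ⊢
    exact ⟨⟨h.2.1.trans h.1.1, h.2.2⟩, sdiff_subset_sdiff h.1.1 le_rfl⟩
  · rintro ⟨R, B'⟩ h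
    simp only [mem_sigma, mem_filter, mem_powerset] at h ⊢
    refine ⟨⟨union_subset h.1.1 (h.2.trans sdiff_subset), h.1.2.trans subset_union_left⟩,
      subset_union_left, h.1.2⟩
  · rintro ⟨B, R⟩ h
    simp only [mem_sigma, mem_filter, mem_powerset] at h
    show (⟨R ∪ B \ R, R⟩ : (_ : Finset V) × Finset V) = ⟨B, R⟩
    rw [union_sdiff_of_subset h.2.1]
  · rintro ⟨R, B'⟩ h
    simp only [mem_sigma, mem_filter, mem_powerset] at h
    show (⟨R, (R ∪ B') \ R⟩ : (_ : Finset V) × Finset V) = ⟨R, B'⟩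
    have : (R ∪ B') \ R = B' := by
      rw [union_sdiff_left, Finset.sdiff_eq_self_iff_disjoint]
      exact (disjoint_sdiff.mono_right h.2).symm
    rw [this]
  · rintro ⟨B, R⟩ _
    rfl

/-- the normalised partition function -/
noncomputable def XX (a b : ι → V) (w : ι → ℝ) (q : ℝ) (D : Finset V) : ℝ :=
  fk a b w q ∅ D / zz w univ

theorem val_nonneg {q : ℝ} (hq : 0 ≤ q) (T D : Finset V) (s : Setoid V) : 0 ≤ val q T D s := by
  rw [val]; split_ifs
  · exact le_rfl
  · positivity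

omit [DecidableEq ι] in
theorem fk_nonneg {q : ℝ} (hq : 0 ≤ q) (hw : ∀ e, 0 ≤ w e) (T D : Finset V) :
    0 ≤ fk a b w q T D :=
  sum_nonneg fun _ _ => mul_nonneg (prod_nonneg fun e _ => hw e) (val_nonneg hq _ _ _)

omit [DecidableEq ι] in
theorem fk_pos {q : ℝ} (hq : 0 < q) (hw : ∀ e, 0 ≤ w e) (D : Finset V) :
    0 < fk a b w q ∅ D := by
  refine sum_pos' (fun _ _ => mul_nonneg (prod_nonneg fun e _ => hw e) (val_nonneg hq.le _ _ _))
    ⟨∅, mem_univ _, ?_⟩
  rw [prod_empty, one_mul, val, if_neg]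
  · positivity
  · rintro ⟨t, ht, _⟩
    exact absurd ht (notMem_empty t)

omit [DecidableEq ι] in
theorem XX_pos {q : ℝ} (hq : 0 < q) (hw : ∀ e, 0 ≤ w e) (D : Finset V) :
    0 < XX a b w q D := div_pos (fk_pos hq hw D) (zz_pos hw _)

theorem fk_div (q s : ℝ) (hqs : q = 1 - s) (hw : ∀ e, 0 ≤ w e) (T D : Finset V) :
    fk a b w q T D / zz w univ = ∑ B ∈ D.powerset.filter (fun B => T ⊆ B),
      mu a b w B * beta a b w (phi q s T) B := by
  rw [fk_eq q s hqs hw, sum_div]
  refine sum_congr rfl fun B _ => ?_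
  rw [zz_mu hw]
  have := (zz_pos hw (univ : Finset ι)).ne'
  field_simp

theorem XX_eq (q s : ℝ) (hqs : q = 1 - s) (hw : ∀ e, 0 ≤ w e) (D : Finset V) :
    XX a b w q D = ∑ B ∈ D.powerset, mu a b w B * beta a b w (phi q s ∅) B := by
  rw [XX, fk_div q s hqs hw]
  refine sum_congr ?_ fun _ _ => rfl
  ext B
  simp

/-- the numerator as a sum over the component of `T` -/
theorem fk_div_eq (q s : ℝ) (hqs : q = 1 - s) (hw : ∀ e, 0 ≤ w e) {T' T D : Finset V}
    (hT' : T' ⊆ T) :
    ∑ B ∈ D.powerset.filter (fun B => T ⊆ B), mu a b w B * beta a b w (phi q s T') B =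
      ∑ R ∈ D.powerset.filter (fun R => T ⊆ R),
        mu a b w R * delta a b w (phi q s T') T R * XX a b w q (D \ R) := by
  have h1 : ∀ B ∈ D.powerset.filter (fun B => T ⊆ B),
      mu a b w B * beta a b w (phi q s T') B =
      ∑ R ∈ B.powerset.filter (fun R => T ⊆ R),
        (mu a b w R * delta a b w (phi q s T') T R) *
          (mu a b w (B \ R) * beta a b w (phi q s ∅) (B \ R)) := by
    intro B hB
    rw [mem_filter] at hB
    rw [beta_group q s hT' hB.2, mul_sum]
    refine sum_congr rfl fun R hR => ?_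
    rw [mem_filter, mem_powerset] at hR
    rw [mu_split hR.1]
    ring
  rw [sum_congr rfl h1, sum_sum_split (fun R B' => (mu a b w R * delta a b w (phi q s T') T R) *
          (mu a b w B' * beta a b w (phi q s ∅) B'))]
  refine sum_congr rfl fun R _ => ?_
  rw [XX_eq q s hqs hw, mul_sum]

theorem delta_nonneg {q s : ℝ} (hq : 0 < q) (hs : 0 ≤ s) (hs1 : s ≤ 1) (hw : ∀ e, 0 ≤ w e)
    (T R : Finset V) : 0 ≤ delta a b w (phi q s T) T R := by
  classical
  refine sum_nonneg fun H hH => ?_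
  replace hH := mem_filter.1 hH
  rw [mem_powerset] at hH
  exact mul_nonneg (prod_nonneg fun e _ => hw e)
    (gH_nonneg hH.1 hq hs (fun e => by linarith [hw e]) hH.2)

theorem delta_nonpos {q s : ℝ} (hq : 0 < q) (hs : 0 ≤ s) (hs1 : s ≤ 1) (hw : ∀ e, 0 ≤ w e)
    {x : V} {U : Finset V} (hx : x ∈ U) : delta a b w (phi q s ∅) {x} U ≤ 0 := by
  classical
  refine sum_nonpos fun H hH => ?_
  replace hH := mem_filter.1 hH
  rw [mem_powerset] at hH
  refine mul_nonpos_of_nonneg_of_nonpos (prod_nonneg fun e _ => hw e)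
    (gH_nonpos ⟨x, hx⟩ hH.1 hq hs (fun e => by linarith [hw e]) fun y hy z hz => ?_)
  obtain ⟨t, ht, h1⟩ := hH.2 y hy
  obtain ⟨t', ht', h2⟩ := hH.2 z hz
  rw [mem_singleton] at ht ht'
  subst ht; subst ht'
  exact (con a b H).trans ((con a b H).symm h1) h2

omit [DecidableEq ι] in
theorem delta_singleton_eq (φ : Finset V → ℝ) {x y : V} {U : Finset V} (hx : x ∈ U)
    (hy : y ∈ U) : delta a b w φ {x} U = delta a b w φ {y} U := by
  classical
  rw [delta, delta]
  refine sum_congr ?_ fun _ _ => rfl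
  refine filter_congr fun H _ => ?_
  have h1 : ∀ x y : V, x ∈ U → y ∈ U → Anch a b {x} U H → Anch a b {y} U H := by
    intro x y hx hy h z hz
    obtain ⟨t, ht, h3⟩ := h z hz
    obtain ⟨t', ht', h4⟩ := h y hy
    rw [mem_singleton] at ht ht'
    subst ht; subst ht'
    exact ⟨y, mem_singleton_self y, (con a b H).trans ((con a b H).symm h4) h3⟩
  exact ⟨h1 x y hx hy, h1 y x hy hx⟩

open Classical in
/-- the coefficients of the recursion -/
noncomputable def cc (a b : ι → V) (w : ι → ℝ) (q s : ℝ) (U : Finset V) : ℝ :=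
  if h : U.Nonempty then -(mu a b w U * delta a b w (phi q s ∅) {h.choose} U) else 0

theorem cc_nonneg {q s : ℝ} (hq : 0 < q) (hs : 0 ≤ s) (hs1 : s ≤ 1) (hw : ∀ e, 0 ≤ w e)
    (U : Finset V) : 0 ≤ cc a b w q s U := by
  rw [cc]
  split_ifs with h
  · have h1 := delta_nonpos (a := a) (b := b) hq hs hs1 hw h.choose_spec
    have h2 := mu_pos (a := a) (b := b) hw U
    nlinarith
  · exact le_rfl

omit [DecidableEq ι] in
theorem cc_eq (a b : ι → V) (w : ι → ℝ) (q s : ℝ) {U : Finset V} {x : V} (hx : x ∈ U) :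
    cc a b w q s U = -(mu a b w U * delta a b w (phi q s ∅) {x} U) := by
  have h : U.Nonempty := ⟨x, hx⟩
  rw [cc, dif_pos h, delta_singleton_eq _ h.choose_spec hx]

/-- the recursion for the normalised partition function -/
theorem XX_rec (q s : ℝ) (hqs : q = 1 - s) (hw : ∀ e, 0 ≤ w e) (D : Finset V) (x : V)
    (_hx : x ∈ D) : XX a b w q D = XX a b w q (D.erase x) -
      ∑ U ∈ D.powerset.filter (fun U => x ∈ U), cc a b w q s U * XX a b w q (D \ U) := by
  have h1 := fk_div_eq (a := a) (b := b) (w := w) q s hqs hw (T' := ∅) (T := {x}) (D := D)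
    (empty_subset _)
  simp only [singleton_subset_iff] at h1
  have h2 : ∑ U ∈ D.powerset.filter (fun U => x ∈ U), cc a b w q s U * XX a b w q (D \ U) =
      -∑ B ∈ D.powerset.filter (fun B => x ∈ B), mu a b w B * beta a b w (phi q s ∅) B := by
    rw [h1, ← sum_neg_distrib]
    refine sum_congr rfl fun U hU => ?_
    rw [cc_eq a b w q s (mem_filter.1 hU).2]
    ring
  rw [h2, sub_neg_eq_add, XX_eq q s hqs hw, XX_eq q s hqs hw,
    ← sum_filter_add_sum_filter_not D.powerset (fun B => x ∈ B), add_comm]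
  congr 1
  refine sum_congr ?_ fun _ _ => rfl
  ext B
  rw [mem_filter, mem_powerset, mem_powerset, subset_erase]

/-- **Total monotonicity of the hitting functional.**  The probability that the cluster of the
complement of `D` misses `T` is totally monotone in `D`. -/
theorem tmon_fk {q : ℝ} (hq : 0 < q) (hq1 : q ≤ 1) (hw : ∀ e, 0 ≤ w e) (T : Finset V) :
    TMon univ (fun D => fk a b w q T D / fk a b w q ∅ D) := by
  have hs : 0 ≤ 1 - q := by linarith
  have hs1 : 1 - q ≤ 1 := by linarith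
  have hqs : q = 1 - (1 - q) := by ring
  have hd : ∀ R, 0 ≤ if T ⊆ R then mu a b w R * delta a b w (phi q (1 - q) T) T R else 0 := by
    intro R
    split_ifs
    · exact mul_nonneg (mu_pos hw R).le (delta_nonneg hq hs hs1 hw T R)
    · exact le_rfl
  refine (tmon_hit (XX_pos (a := a) (b := b) hq hw) (cc_nonneg (a := a) (b := b) hq hs hs1 hw)
    (fun D x hx => XX_rec q (1 - q) hqs hw D x hx) hd univ).congr fun D _ => ?_
  have h1 : fk a b w q T D / zz w univ = ∑ R ∈ D.powerset,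
      (if T ⊆ R then mu a b w R * delta a b w (phi q (1 - q) T) T R else 0) *
        XX a b w q (D \ R) := by
    rw [fk_div q (1 - q) hqs hw, fk_div_eq q (1 - q) hqs hw (Subset.refl T), sum_filter]
    refine sum_congr rfl fun R _ => ?_
    split_ifs
    · rfl
    · rw [zero_mul]
  rw [← h1, XX, div_div_div_cancel_right₀ (zz_pos hw _).ne']

end Vale.Agent.P167.R2.H68
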