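import Vale.Agent.P167.R2.H68.Fin

/-!
# P167: the covariance inequality, and the induced subgraphs of the square lattice
-/

namespace Vale.Agent.P167.R2.H68.Gen

open Finset
open Vale.Agent.P167.R2.H68 (con miss missSet mem_missSet con_le_iff con_edge odds odds_nonneg)

section cov

variable {V E : Type*} {l r : E → V} {p : E → ℝ} {q : ℝ}

theorem finite_missSet (D : Finset V) (s : Setoid V) : (missSet (D : Set V)ᶜ s).Finite := by
  refine (D.finite_toSet.image (Quotient.mk s)).subset ?_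
  intro c hc
  induction c using Quotient.ind with | _ u => ?_
  rw [mem_missSet] at hc
  refine ⟨u, ?_, rfl⟩
  by_contra h
  exact hc u h (s.refl u)

open Classical in
theorem miss_erase (D : Finset V) (y : V) (s : Setoid V) :
    miss ((D.erase y : Finset V) : Set V)ᶜ s + (if ∃ z, z ∉ D ∧ s y z then 0 else 1) =
      miss (D : Set V)ᶜ s := by
  have h1 : missSet ((D.erase y : Finset V) : Set V)ᶜ s =
      missSet (D : Set V)ᶜ s \ {Quotient.mk s y} := by
    ext c
    induction c using Quotient.ind with | _ u => ?_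
    rw [Set.mem_diff, mem_missSet, mem_missSet, Set.mem_singleton_iff]
    constructor
    · intro h
      refine ⟨fun k hk => h k fun h' => hk (mem_of_mem_erase (mem_coe.1 h')), fun h' => ?_⟩
      exact h y (fun h2 => notMem_erase y D (mem_coe.1 h2)) (s.symm (Quotient.exact h'))
    · rintro ⟨h, h'⟩ k hk hku
      by_cases hky : k = y
      · subst hky
        exact h' (Quotient.sound (s.symm hku))
      · exact h k (fun h2 => hk (mem_coe.2 (mem_erase.2 ⟨hky, mem_coe.1 h2⟩))) hku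
  split_ifs with h
  · obtain ⟨z, hz, hyz⟩ := h
    have h2 : Quotient.mk s y ∉ missSet (D : Set V)ᶜ s := by
      rw [mem_missSet]
      intro h2
      exact h2 z hz (s.symm hyz)
    rw [miss, miss, h1, Set.diff_singleton_eq_self h2, add_zero]
  · have h2 : Quotient.mk s y ∈ missSet (D : Set V)ᶜ s := by
      rw [mem_missSet]
      intro k hk hky
      exact h ⟨k, hk, s.symm hky⟩
    rw [miss, miss, h1]
    exact Set.ncard_diff_singleton_add_one h2 (finite_missSet D s)

open Classical in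
/-- indicator -/
noncomputable def ind (P : Prop) : ℝ := if P then 1 else 0

theorem ind_pos {P : Prop} (h : P) : ind P = 1 := by rw [ind, if_pos h]

theorem ind_neg {P : Prop} (h : ¬ P) : ind P = 0 := by rw [ind, if_neg h]

theorem valI_ind (q : ℝ) (T D : Finset V) (s : Setoid V) :
    valI q T D s = valI q ∅ D s * ind (¬ ∃ t ∈ T, ∃ z, z ∉ D ∧ s t z) := by
  rw [valI_empty, valI]
  by_cases h : ∃ t ∈ T, ∃ z, z ∉ D ∧ s t z
  · rw [if_pos h, ind_neg (not_not_intro h), mul_zero]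
  · rw [if_neg h, ind_pos h, mul_one]

open Classical in
theorem valI_erase (q : ℝ) (T D : Finset V) (y : V) (s : Setoid V) :
    q * valI q T (D.erase y) s = valI q ∅ D s *
      (q * ind (¬ ∃ t ∈ T, ∃ z, z ∉ D ∧ s t z) +
        (1 - q) * ind ((¬ ∃ t ∈ T, ∃ z, z ∉ D ∧ s t z) ∧ ¬ ∃ z, z ∉ D ∧ s y z) -
        ind ((¬ ∃ t ∈ T, ∃ z, z ∉ D ∧ s t z) ∧ ∃ t ∈ T, s t y)) := by
  have hm := miss_erase D y s
  rw [valI_empty, valI]
  by_cases hX : ∃ t ∈ T, ∃ z, z ∉ D ∧ s t z
  · have h1 : ∃ t ∈ T, ∃ z, z ∉ D.erase y ∧ s t z := by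
      obtain ⟨t, ht, z, hz, h⟩ := hX
      exact ⟨t, ht, z, fun h' => hz (mem_of_mem_erase h'), h⟩
    rw [if_pos h1, ind_neg (not_not_intro hX), ind_neg (fun h => h.1 hX),
      ind_neg (fun h => h.1 hX)]
    ring
  · by_cases hS : ∃ t ∈ T, s t y
    · have h1 : ∃ t ∈ T, ∃ z, z ∉ D.erase y ∧ s t z := by
        obtain ⟨t, ht, h⟩ := hS
        exact ⟨t, ht, y, notMem_erase y D, h⟩
      have h2 : ¬ ∃ z, z ∉ D ∧ s y z := by
        rintro ⟨z, hz, h⟩
        obtain ⟨t, ht, h'⟩ := hS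
        exact hX ⟨t, ht, z, hz, s.trans h' h⟩
      rw [if_pos h1, ind_pos hX, ind_pos ⟨hX, h2⟩, ind_pos ⟨hX, hS⟩]
      ring
    · have h1 : ¬ ∃ t ∈ T, ∃ z, z ∉ D.erase y ∧ s t z := by
        rintro ⟨t, ht, z, hz, h⟩
        by_cases hzy : z = y
        · subst hzy
          exact hS ⟨t, ht, h⟩
        · exact hX ⟨t, ht, z, fun h' => hz (mem_erase.2 ⟨hzy, h'⟩), h⟩
      rw [if_neg h1, ind_pos hX, ind_neg (P := _ ∧ ∃ t ∈ T, s t y) (fun h => hS h.2)]
      by_cases hY : ∃ z, z ∉ D ∧ s y z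
      · rw [if_pos hY, add_zero] at hm
        rw [hm, ind_neg (P := _ ∧ ¬ ∃ z, z ∉ D ∧ s y z) (fun h => h.2 hY)]
        ring
      · rw [if_neg hY] at hm
        rw [← hm, ind_pos (P := _ ∧ ¬ ∃ z, z ∉ D ∧ s y z) ⟨hX, hY⟩, pow_succ]
        ring

/-- **The covariance inequality.** -/
theorem covariance (hp : ∀ e, 0 ≤ p e ∧ p e < 1) (hq : 0 < q) (hq1 : q ≤ 1)
    (F : Finset E) (D T : Finset V) (y : V) :
    (1 - q) * (prob l r p q F (D : Set V)ᶜ (fun A => ¬ Hits l r (D : Set V)ᶜ T A ∧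
          ¬ Hits l r (D : Set V)ᶜ {y} A) -
        prob l r p q F (D : Set V)ᶜ (fun A => ¬ Hits l r (D : Set V)ᶜ T A) *
          prob l r p q F (D : Set V)ᶜ (fun A => ¬ Hits l r (D : Set V)ᶜ {y} A)) ≤
      prob l r p q F (D : Set V)ᶜ (fun A => ¬ Hits l r (D : Set V)ᶜ T A ∧
        ∃ t ∈ T, joined l r ∅ A t y) := by
  classical
  have hw : ∀ e, 0 ≤ odds p e := odds_nonneg (fun e => (hp e).1) (fun e => (hp e).2)
  have hH : ∀ (N : Finset V) (A : Finset E), Hits l r (D : Set V)ᶜ N A ↔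
      ∃ t ∈ N, ∃ z, z ∉ D ∧ con l r A t z := by
    intro N A
    rw [hits_iff]
    rfl
  have hY : ∀ A : Finset E, Hits l r (D : Set V)ᶜ {y} A ↔ ∃ z, z ∉ D ∧ con l r A y z := by
    intro A
    rw [hH]
    simp
  have hJ : ∀ (A : Finset E) (t : V), joined l r ∅ A t y ↔ con l r A t y := by
    intro A t
    rw [joined_empty]
  set m : Finset E → ℝ := fun A => (∏ e ∈ A, odds p e) * valI q ∅ D (con l r A) with hm
  set z := fkI l r (odds p) q F ∅ D with hz
  have hzpos : 0 < z := fkI_pos hw hq F D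
  have hsum : ∀ ev : Finset E → Prop, prob l r p q F (D : Set V)ᶜ ev =
      (∑ A ∈ F.powerset, m A * ind (ev A)) / z := by
    intro ev
    rw [prob_eq (fun e => (hp e).2) hq, ← hz, sum_filter]
    congr 1
    refine sum_congr rfl fun A _ => ?_
    by_cases h : ev A
    · rw [if_pos h, ind_pos h, mul_one]
    · rw [if_neg h, ind_neg h, mul_zero]
  set X : Finset E → Prop := fun A => ¬ Hits l r (D : Set V)ᶜ T A with hX
  set Y : Finset E → Prop := fun A => ¬ Hits l r (D : Set V)ᶜ {y} A with hYd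
  set S : Finset E → Prop := fun A => ∃ t ∈ T, joined l r ∅ A t y with hS
  have e1 : q * fkI l r (odds p) q F T (D.erase y) =
      q * ∑ A ∈ F.powerset, m A * ind (X A) +
      (1 - q) * (∑ A ∈ F.powerset, m A * ind (X A ∧ Y A)) -
      ∑ A ∈ F.powerset, m A * ind (X A ∧ S A) := by
    rw [fkI, mul_sum, mul_sum, mul_sum, ← sum_add_distrib, ← sum_sub_distrib]
    refine sum_congr rfl fun A _ => ?_
    rw [mul_left_comm, valI_erase]
    simp only [hX, hYd, hS, hH, hm, hJ, mem_singleton, exists_eq_left]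
    ring
  have e2 : q * fkI l r (odds p) q F ∅ (D.erase y) =
      q * z + (1 - q) * ∑ A ∈ F.powerset, m A * ind (Y A) := by
    rw [fkI, hz, fkI, mul_sum, mul_sum, mul_sum, ← sum_add_distrib]
    refine sum_congr rfl fun A _ => ?_
    rw [mul_left_comm, valI_erase]
    have h1 : (¬ ∃ t ∈ (∅ : Finset V), ∃ z, z ∉ D ∧ con l r A t z) := by simp
    rw [ind_pos h1, ind_neg (P := _ ∧ ∃ t ∈ (∅ : Finset V), con l r A t y) (fun h => by
      obtain ⟨t, ht, _⟩ := h.2
      exact notMem_empty t ht)]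
    have h2 : ((¬ ∃ t ∈ (∅ : Finset V), ∃ z, z ∉ D ∧ con l r A t z) ∧
        ¬ ∃ z, z ∉ D ∧ con l r A y z) ↔ Y A := by
      rw [hYd]
      beta_reduce
      rw [hY]
      exact ⟨fun h => h.2, fun h => ⟨h1, h⟩⟩
    rw [propext h2, hm]
    ring
  have e3 : fkI l r (odds p) q F T D = ∑ A ∈ F.powerset, m A * ind (X A) := by
    rw [fkI]
    refine sum_congr rfl fun A _ => ?_
    rw [valI_ind]
    simp only [hX, hH, hm]
    ring
  have hmono := ratio_mono (l := l) (r := r) hw hq hq1 F T (erase_subset y D)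
  have hpos' : 0 < fkI l r (odds p) q F ∅ (D.erase y) := fkI_pos hw hq F _
  rw [← mul_div_mul_left _ _ hq.ne', e1, e2, e3, ← hz, div_le_div_iff₀ (by
    rw [← e2]; positivity) hzpos] at hmono
  rw [hsum, hsum, hsum, hsum]
  set a := ∑ A ∈ F.powerset, m A * ind (X A) with ha
  set b := ∑ A ∈ F.powerset, m A * ind (Y A) with hb
  set c := ∑ A ∈ F.powerset, m A * ind (X A ∧ Y A) with hc
  set d := ∑ A ∈ F.powerset, m A * ind (X A ∧ S A) with hd
  have h4 : (1 - q) * (c * z - a * b) ≤ d * z := by nlinarith [hmono]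
  have h5 : (1 - q) * (c / z - a / z * (b / z)) = (1 - q) * (c * z - a * b) / (z * z) := by
    field_simp
  have h6 : d / z = d * z / (z * z) := by field_simp
  rw [h5, h6]
  exact div_le_div_of_nonneg_right h4 (by positivity)

end cov

end Vale.Agent.P167.R2.H68.Gen
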