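import Mathlib

/-!
# P167: the random-cluster measure of a (possibly infinite) multigraph on a finite set of edges

`V` is the set of vertices, `E` the set of edges, `l e` and `r e` are the ends of the edge `e`.
-/

namespace Vale.Agent.P167.R2.H68.Gen

open Finset

variable {V E : Type*} (l r : E → V)

/-- `x` and `y` are in the same component when the edges `e ∈ A` are open and the vertices of `W`
are identified (wired). -/
def joined (W : Set V) (A : Finset E) : Setoid V :=
  Relation.EqvGen.setoid fun x y => (x ∈ W ∧ y ∈ W) ∨ ∃ e ∈ A, x = l e ∧ y = r e

/-- The number of components, isolated vertices included, after the identification of the vertices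
of `W`. -/
noncomputable def comps (W : Set V) (A : Finset E) : ℕ := Nat.card (Quotient (joined l r W A))

open Classical in
/-- The weight of the set `A ⊆ F` of open edges in the random-cluster measure on the subsets of `F`
with edge parameters `p`, cluster weight `q` and wired set `W`. -/
noncomputable def weight (p : E → ℝ) (q : ℝ) (F : Finset E) (W : Set V) (A : Finset E) : ℝ :=
  (∏ e ∈ A, p e) * (∏ e ∈ F \ A, (1 - p e)) * q ^ comps l r W A

open Classical in
/-- The probability of the event `ev` for this random-cluster measure. -/
noncomputable def prob (p : E → ℝ) (q : ℝ) (F : Finset E) (W : Set V) (ev : Finset E → Prop) : ℝ :=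
  (∑ A ∈ F.powerset.filter ev, weight l r p q F W A) / ∑ A ∈ F.powerset, weight l r p q F W A

/-- The component of the wired set `W` meets `T`. -/
def Hits (W : Set V) (T : Finset V) (A : Finset E) : Prop :=
  ∃ x ∈ W, ∃ t ∈ T, joined l r W A x t

/-- All vertices of `P` and no vertex of `N` are in the component of the wired set. -/
def Pattern (W : Set V) (P N : Finset V) (A : Finset E) : Prop :=
  (∀ x ∈ P, Hits l r W {x} A) ∧ ∀ x ∈ N, ¬ Hits l r W {x} A

/-- The open edges `O` and the closed edges `C` are disjoint and can be found by an exploration from
the wired set `W`: each of them has an end which is joined to `W` by edges of `O`. -/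
def Explored (W : Set V) (O C : Finset E) : Prop :=
  Disjoint O C ∧ ∀ e, e ∈ O ∨ e ∈ C → ∃ x ∈ W, joined l r ∅ O x (l e) ∨ joined l r ∅ O x (r e)

/-- A finite set of vertices outside `W₀`, as a finite set of vertices. -/
def dom (W₀ : Set V) (D : Finset {x // x ∉ W₀}) : Finset V :=
  D.map (Function.Embedding.subtype _)

end Vale.Agent.P167.R2.H68.Gen
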