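import Vale.Agent.P167.R2.H68.Edge

/-!
# P167: comparison of domains, sets of edges and explored regions
-/

namespace Vale.Agent.P167.R2.H68.Gen

open Finset
open Vale.Agent.P167.R2.H68 (con miss meet missSet meetSet mem_missSet mem_meetSet con_le_iff
  con_edge TMon mob sum_mob coeff_unique fk val fk_mono fk_edges odds odds_nonneg)

section comparison

variable {V E : Type*} {l r : E → V}

/-- a finite set of vertices which contains everything in sight -/
theorem exists_box [DecidableEq V] (l r : E → V) (F : Finset E) (D T : Finset V) :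
    ∃ U : Finset V, D ⊆ U ∧ T ⊆ U ∧ ∀ e ∈ F, l e ∈ U ∧ r e ∈ U := by
  refine ⟨D ∪ T ∪ (F.image l ∪ F.image r), fun x hx => ?_, fun x hx => ?_, fun e he => ⟨?_, ?_⟩⟩
  · exact mem_union_left _ (mem_union_left _ hx)
  · exact mem_union_left _ (mem_union_right _ hx)
  · exact mem_union_right _ (mem_union_left _ (mem_image_of_mem _ he))
  · exact mem_union_right _ (mem_union_right _ (mem_image_of_mem _ he))

theorem subtype_empty [DecidableEq V] (U : Finset V) : (∅ : Finset V).subtype (· ∈ U) = ∅ := by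
  ext x; simp

/-- the probability to miss `T` increases with `D` -/
theorem ratio_mono {w : E → ℝ} (hw : ∀ e, 0 ≤ w e) {q : ℝ} (hq : 0 < q) (hq1 : q ≤ 1)
    (F : Finset E) (T : Finset V) {D' D : Finset V} (h : D' ⊆ D) :
    fkI l r w q F T D' / fkI l r w q F ∅ D' ≤ fkI l r w q F T D / fkI l r w q F ∅ D := by
  classical
  obtain ⟨U, hD, hT, hF⟩ := exists_box l r F D T
  rw [fkI_eq hF hD hT, fkI_eq hF hD (empty_subset U), fkI_eq hF (h.trans hD) hT,
    fkI_eq hF (h.trans hD) (empty_subset U), subtype_empty]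
  refine fk_mono (l := lf hF) (r := rf hF) hq hq1 (fun e => hw e.1) _ ?_
  intro x hx
  rw [mem_subtype] at hx ⊢
  exact h hx

/-- the probability to miss `T` decreases with the weights of the edges with an end outside `D` -/
theorem ratio_edges {w w' : E → ℝ} (hw : ∀ e, 0 ≤ w e) {q : ℝ} (hq : 0 < q) (hq1 : q ≤ 1)
    (F : Finset E) (T D : Finset V) (hww' : ∀ e ∈ F, w e ≤ w' e)
    (h : ∀ e ∈ F, l e ∈ D → r e ∈ D → w e = w' e) :
    fkI l r w' q F T D / fkI l r w' q F ∅ D ≤ fkI l r w q F T D / fkI l r w q F ∅ D := by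
  classical
  obtain ⟨U, hD, hT, hF⟩ := exists_box l r F D T
  rw [fkI_eq hF hD hT, fkI_eq hF hD (empty_subset U), fkI_eq hF hD hT,
    fkI_eq hF hD (empty_subset U), subtype_empty]
  refine fk_edges (l := lf hF) (r := rf hF) hq hq1 (fun e => hw e.1) (fun e => hww' e.1 e.2) _ _ ?_
  intro e h1 h2
  rw [mem_subtype] at h1 h2
  exact h e.1 e.2 h1 h2

theorem fkI_restrict [DecidableEq E] (w : E → ℝ) (q : ℝ) {F₂ F₁ : Finset E} (h : F₂ ⊆ F₁)
    (T D : Finset V) :
    fkI l r (fun e => if e ∈ F₂ then w e else 0) q F₁ T D = fkI l r w q F₂ T D := by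
  rw [fkI, fkI, ← sum_subset (powerset_mono.2 h)]
  · refine sum_congr rfl fun A hA => ?_
    rw [mem_powerset] at hA
    congr 1
    exact prod_congr rfl fun e he => if_pos (hA he)
  · intro A _ hA
    rw [mem_powerset, not_subset] at hA
    obtain ⟨e, he, he'⟩ := hA
    rw [prod_eq_zero he (if_neg he'), zero_mul]

/-- the probability to miss `T` decreases when edges with an end outside `D` are added -/
theorem ratio_add {w : E → ℝ} (hw : ∀ e, 0 ≤ w e) {q : ℝ} (hq : 0 < q) (hq1 : q ≤ 1)
    {F₂ F₁ : Finset E} (h : F₂ ⊆ F₁) (T D : Finset V)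
    (h' : ∀ e ∈ F₁, e ∉ F₂ → l e ∉ D ∨ r e ∉ D) :
    fkI l r w q F₁ T D / fkI l r w q F₁ ∅ D ≤ fkI l r w q F₂ T D / fkI l r w q F₂ ∅ D := by
  classical
  have h1 := ratio_edges (l := l) (r := r) (w := fun e => if e ∈ F₂ then w e else 0) (w' := w)
    (fun e => by split_ifs; exacts [hw e, le_rfl]) hq hq1 F₁ T D
    (fun e _ => by split_ifs; exacts [le_rfl, hw e]) (fun e he h2 h3 => by
      split_ifs with h4
      · rfl
      · exact absurd (h' e he h4) (by tauto))
  rwa [fkI_restrict w q h, fkI_restrict w q h] at h1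

end comparison

/-! ### Explored regions -/

section explored

variable {V E : Type*} (l r : E → V)

variable {l r}

theorem joined_empty (A : Finset E) : joined l r ∅ A = con l r A := by
  refine le_antisymm ?_ (con_le_joined ∅ A)
  rw [joined_le_iff]
  exact ⟨fun x hx => absurd hx (Set.notMem_empty x), fun e he => con_edge he⟩

open Classical in
/-- the vertices of `D` which are not joined to the outside by edges of `O` -/
noncomputable def rest (l r : E → V) (D : Finset V) (O : Finset E) : Finset V :=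
  D.filter fun v => ¬ ∃ x, x ∉ D ∧ con l r O x v

theorem notMem_rest {D : Finset V} {O : Finset E} {v : V} :
    v ∉ rest l r D O ↔ ∃ x, x ∉ D ∧ con l r O x v := by
  classical
  rw [rest, mem_filter, not_and, not_not]
  constructor
  · intro h
    by_cases hv : v ∈ D
    · exact h hv
    · exact ⟨v, hv, (con l r O).refl v⟩
  · intro h _
    exact h

theorem rest_subset (D : Finset V) (O : Finset E) : rest l r D O ⊆ D := by
  classical
  exact filter_subset _ _

theorem rest_anti {D : Finset V} {O O' : Finset E} (h : O ⊆ O') :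
    rest l r D O' ⊆ rest l r D O := by
  intro v hv
  by_contra hcon
  obtain ⟨x, hx, hxv⟩ := notMem_rest.1 hcon
  refine notMem_rest.2 ⟨x, hx, ?_⟩ hv
  have : con l r O ≤ con l r O' := con_le_iff.2 fun e he => con_edge (h he)
  exact this hxv

variable {D : Finset V} {O C : Finset E}

theorem Explored.left (h : Explored l r (D : Set V)ᶜ O C) {e : E} (he : e ∈ O) :
    l e ∉ rest l r D O ∧ r e ∉ rest l r D O := by
  obtain ⟨x, hx, h1⟩ := h.2 e (Or.inl he)
  rw [joined_empty] at h1
  have hx' : x ∉ D := by simpa using hx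
  have h2 : con l r O (l e) (r e) := con_edge he
  rcases h1 with h1 | h1
  · exact ⟨notMem_rest.2 ⟨x, hx', h1⟩, notMem_rest.2 ⟨x, hx', (con l r O).trans h1 h2⟩⟩
  · exact ⟨notMem_rest.2 ⟨x, hx', (con l r O).trans h1 ((con l r O).symm h2)⟩,
      notMem_rest.2 ⟨x, hx', h1⟩⟩

theorem Explored.right (h : Explored l r (D : Set V)ᶜ O C) {e : E} (he : e ∈ C) :
    l e ∉ rest l r D O ∨ r e ∉ rest l r D O := by
  obtain ⟨x, hx, h1⟩ := h.2 e (Or.inr he)
  rw [joined_empty] at h1
  have hx' : x ∉ D := by simpa using hx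
  rcases h1 with h1 | h1
  · exact Or.inl (notMem_rest.2 ⟨x, hx', h1⟩)
  · exact Or.inr (notMem_rest.2 ⟨x, hx', h1⟩)

/-- the explored open edges can be replaced by a larger wired set -/
theorem joined_rest [DecidableEq E] (h : Explored l r (D : Set V)ᶜ O C) (A : Finset E) :
    joined l r (D : Set V)ᶜ (A ∪ O) = joined l r (rest l r D O : Set V)ᶜ A := by
  have hO : con l r O ≤ joined l r (D : Set V)ᶜ (A ∪ O) :=
    con_le_iff.2 fun e he => (joined_le_iff.1 (le_refl (joined l r (D : Set V)ᶜ (A ∪ O)))).2 e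
      (mem_union_right _ he)
  refine le_antisymm ?_ ?_
  · rw [joined_le_iff]
    refine ⟨fun x hx y hy => joined_wired ?_ ?_, fun e he => ?_⟩
    · exact fun h1 => hx (rest_subset D O h1)
    · exact fun h1 => hy (rest_subset D O h1)
    · rcases mem_union.1 he with h1 | h1
      · exact (joined_le_iff.1 (le_refl (joined l r (rest l r D O : Set V)ᶜ A))).2 e h1
      · exact joined_wired (h.left h1).1 (h.left h1).2
  · rw [joined_le_iff]
    refine ⟨fun x hx y hy => ?_, fun e he => ?_⟩
    · obtain ⟨x', hx', h1⟩ := notMem_rest.1 (show x ∉ rest l r D O from hx)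
      obtain ⟨y', hy', h2⟩ := notMem_rest.1 (show y ∉ rest l r D O from hy)
      exact (joined l r (D : Set V)ᶜ (A ∪ O)).trans
        ((joined l r (D : Set V)ᶜ (A ∪ O)).symm (hO h1))
        ((joined l r (D : Set V)ᶜ (A ∪ O)).trans
          (joined_wired (show x' ∈ (D : Set V)ᶜ from hx') (show y' ∈ (D : Set V)ᶜ from hy'))
          (hO h2))
    · exact (joined_le_iff.1 (le_refl (joined l r (D : Set V)ᶜ (A ∪ O)))).2 e
        (mem_union_left _ he)

theorem hits_rest [DecidableEq E] (h : Explored l r (D : Set V)ᶜ O C) (T : Finset V)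
    (A : Finset E) : Hits l r (D : Set V)ᶜ T (A ∪ O) ↔ Hits l r (rest l r D O : Set V)ᶜ T A := by
  constructor
  · rintro ⟨x, hx, t, ht, h1⟩
    rw [joined_rest h] at h1
    exact ⟨x, fun h2 => hx (rest_subset D O h2), t, ht, h1⟩
  · rintro ⟨x, hx, t, ht, h1⟩
    obtain ⟨x', hx', h2⟩ := notMem_rest.1 (show x ∉ rest l r D O from hx)
    refine ⟨x', hx', t, ht, ?_⟩
    rw [joined_rest h]
    refine (joined l r (rest l r D O : Set V)ᶜ A).trans (joined_wired ?_ hx) h1
    exact notMem_rest.2 ⟨x', hx', (con l r O).refl x'⟩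

open Classical in
/-- **The domain Markov property** for an explored region. -/
theorem sum_explored (h : Explored l r (D : Set V)ᶜ O C) (p : E → ℝ) (q : ℝ) (F : Finset E)
    (hO : O ⊆ F) (hC : C ⊆ F) (ev : Finset E → Prop) :
    ∑ A ∈ F.powerset.filter (fun A => ev A ∧ O ⊆ A ∧ Disjoint C A),
        weight l r p q F (D : Set V)ᶜ A =
      ((∏ e ∈ O, p e) * ∏ e ∈ C, (1 - p e)) *
        ∑ A ∈ (F \ (O ∪ C)).powerset.filter (fun A => ev (A ∪ O)),
          weight l r p q (F \ (O ∪ C)) (rest l r D O : Set V)ᶜ A := by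
  rw [mul_sum]
  refine sum_nbij' (fun A => A \ O) (fun A => A ∪ O) ?_ ?_ ?_ ?_ ?_
  · intro A hA
    rw [mem_filter, mem_powerset] at hA ⊢
    obtain ⟨h1, h2, h3, h4⟩ := hA
    refine ⟨fun e he => ?_, ?_⟩
    · rw [mem_sdiff] at he
      rw [mem_sdiff, mem_union, not_or]
      exact ⟨h1 he.1, he.2, fun h5 => disjoint_left.1 h4 h5 he.1⟩
    · rwa [sdiff_union_of_subset h3]
  · intro A hA
    rw [mem_filter, mem_powerset] at hA ⊢
    obtain ⟨h1, h2⟩ := hA
    refine ⟨union_subset (h1.trans sdiff_subset) hO, h2, subset_union_right, ?_⟩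
    rw [disjoint_union_right]
    refine ⟨disjoint_left.2 fun e he he' => ?_, h.1.symm⟩
    exact (mem_sdiff.1 (h1 he')).2 (mem_union_right _ he)
  · intro A hA
    exact sdiff_union_of_subset (mem_filter.1 hA).2.2.1
  · intro A hA
    rw [mem_filter, mem_powerset] at hA
    have h1 : Disjoint A O := disjoint_left.2 fun e he he' =>
      (mem_sdiff.1 (hA.1 he)).2 (mem_union_left _ he')
    exact union_sdiff_cancel_right h1
  · intro A' hA'
    rw [mem_filter, mem_powerset] at hA'
    obtain ⟨h1, h2, h3, h4⟩ := hA'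
    set A := A' \ O with hA
    have hA'A : A' = A ∪ O := (sdiff_union_of_subset h3).symm
    have hAO : Disjoint A O := sdiff_disjoint
    have hAF : A ⊆ F \ (O ∪ C) := by
      intro e he
      rw [hA, mem_sdiff] at he
      rw [mem_sdiff, mem_union, not_or]
      exact ⟨h1 he.1, he.2, fun h5 => disjoint_left.1 h4 h5 he.1⟩
    have hFA : F \ (A ∪ O) = (F \ (O ∪ C)) \ A ∪ C := by
      ext e
      simp only [mem_sdiff, mem_union, not_or]
      constructor
      · rintro ⟨h5, h6, h7⟩
        by_cases h8 : e ∈ C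
        · exact Or.inr h8
        · exact Or.inl ⟨⟨h5, h7, h8⟩, h6⟩
      · rintro (⟨⟨h5, h7, h8⟩, h6⟩ | h8)
        · exact ⟨h5, h6, h7⟩
        · exact ⟨hC h8, fun h9 => (mem_union.not.1 (mem_sdiff.1 (hAF h9)).2) (Or.inr h8),
            fun h9 => disjoint_left.1 h.1 h9 h8⟩
    have hd : Disjoint ((F \ (O ∪ C)) \ A) C := by
      rw [disjoint_left]
      intro e he he'
      exact (mem_sdiff.1 (mem_sdiff.1 he).1).2 (mem_union_right _ he')
    rw [hA'A, weight, weight, comps, comps, joined_rest h, prod_union hAO, hFA, prod_union hd]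
    ring

end explored

end Vale.Agent.P167.R2.H68.Gen
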