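import Vale.Agent.P167.R2.H68.Lim

/-!
# P167: several edges at the wired set; adjacent edges
-/

namespace Vale.Agent.P167.R2.H68

open Finset

section finite

variable {V E : Type*} [Fintype V] [DecidableEq V] [Fintype E] [DecidableEq E] {l r : E → V}

/-- the probability to miss `T` decreases with the weights of the edges with an end outside `D` -/
theorem fk_edges {q : ℝ} (hq : 0 < q) (hq1 : q ≤ 1) {w w' : E → ℝ} (hw : ∀ e, 0 ≤ w e)
    (hww' : ∀ e, w e ≤ w' e) (T D : Finset V)
    (h : ∀ e, l e ∈ D → r e ∈ D → w e = w' e) :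
    fk l r w' q T D / fk l r w' q ∅ D ≤ fk l r w q T D / fk l r w q ∅ D := by
  have key : ∀ S : Finset E,
      fk l r (fun e => if e ∈ S then w' e else w e) q T D /
        fk l r (fun e => if e ∈ S then w' e else w e) q ∅ D ≤
      fk l r w q T D / fk l r w q ∅ D := by
    intro S
    induction S using Finset.induction_on with
    | empty => simp
    | insert e S he ih =>
      refine le_trans ?_ ih
      have hpos : ∀ f, 0 ≤ (fun e => if e ∈ S then w' e else w e) f := by
        intro f
        beta_reduce
        split_ifs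
        · exact (hw f).trans (hww' f)
        · exact hw f
      have hrest : ∀ f, f ≠ e → (fun e => if e ∈ S then w' e else w e) f =
          (fun e' => if e' ∈ insert e S then w' e' else w e') f := by
        intro f hf
        beta_reduce
        simp [mem_insert, hf]
      have hle : (fun e => if e ∈ S then w' e else w e) e ≤
          (fun e' => if e' ∈ insert e S then w' e' else w e') e := by
        beta_reduce
        rw [if_neg he, if_pos (mem_insert_self e S)]
        exact hww' e
      by_cases h1 : l e ∈ D
      · by_cases h2 : r e ∈ D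
        · have : (fun e' => if e' ∈ insert e S then w' e' else w e') =
              (fun e => if e ∈ S then w' e else w e) := by
            funext f
            by_cases hf : f = e
            · subst hf
              rw [if_pos (mem_insert_self f S), if_neg he]
              exact (h f h1 h2).symm
            · exact (hrest f hf).symm
          rw [this]
        · exact fk_edge hq hq1 hpos hle hrest (x := r e) (y := l e) (Or.inr ⟨rfl, rfl⟩) T h2
      · exact fk_edge hq hq1 hpos hle hrest (x := l e) (y := r e) (Or.inl ⟨rfl, rfl⟩) T h1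
  have h1 := key univ
  simpa using h1

/-- the sum over the configurations in which `e` and `f` are open -/
theorem sum_both (w : E → ℝ) (q : ℝ) (T D : Finset V) {e f : E} (hef : e ≠ f)
    {x y x' y' : V} (h : (l e = x ∧ r e = y) ∨ (l e = y ∧ r e = x)) (hx : x ∉ D)
    (h' : (l f = x' ∧ r f = y') ∨ (l f = y' ∧ r f = x')) (hx' : x' ∉ D) :
    ∑ A ∈ univ.filter (fun A : Finset E => e ∈ A ∧ f ∈ A),
        (∏ g ∈ A, w g) * val q T D (con l r A) =
      w e * (w f * fk l r (off (off w e) f) q T ((D.erase y).erase y')) := by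
  have h1 : fkOn l r (off w e) q T (D.erase y) f =
      w f * fk l r (off (off w e) f) q T ((D.erase y).erase y') := by
    rw [fkOn_eq (off w e) q T (D.erase y) h' (fun h2 => hx' (mem_of_mem_erase h2))]
    rw [off, if_neg hef.symm]
  rw [← h1, fkOn, mul_sum]
  have h2 : ∀ g : Finset E → ℝ, ∑ A ∈ univ.filter (fun A : Finset E => f ∈ A),
      w e * ((∏ g ∈ A, off w e g) * g A) =
      ∑ A ∈ univ.filter (fun A : Finset E => f ∈ A ∧ e ∉ A),
      w e * ((∏ g ∈ A, w g) * g A) := by
    intro g
    rw [← filter_filter, sum_filter (p := fun A : Finset E => e ∉ A)]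
    refine sum_congr rfl fun A _ => ?_
    by_cases h3 : e ∈ A
    · rw [if_neg (not_not_intro h3), prod_eq_zero h3, zero_mul, mul_zero]
      rw [off, if_pos rfl]
    · rw [if_pos h3, prod_off h3]
  rw [h2]
  refine sum_nbij' (fun A => A.erase e) (fun A => insert e A) ?_ ?_ ?_ ?_ ?_
  · intro A hA
    rw [mem_filter] at hA ⊢
    exact ⟨mem_univ _, mem_erase.2 ⟨hef.symm, hA.2.2⟩, notMem_erase e A⟩
  · intro A hA
    rw [mem_filter] at hA ⊢
    exact ⟨mem_univ _, mem_insert_self e A, mem_insert_of_mem hA.2.1⟩
  · intro A hA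
    exact insert_erase (mem_filter.1 hA).2.1
  · intro A hA
    exact erase_insert (mem_filter.1 hA).2.2
  · intro A hA
    have hA' := (mem_filter.1 hA).2.1
    have h3 : con l r A = merge (con l r (A.erase e)) x y := by
      rw [← con_insert_eq h, insert_erase hA']
    rw [h3, val_merge q T D _ hx, ← mul_prod_erase A w hA']
    ring

theorem off_off (w : E → ℝ) (e f : E) : off (off w f) e = off (off w e) f := by
  funext g
  simp only [off]
  split_ifs <;> rfl

/-- **Negative correlation** of two edges with an end outside `D` -/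
theorem fk_neg {q : ℝ} (hq : 0 < q) (hq1 : q ≤ 1) {w : E → ℝ} (hw : ∀ e, 0 ≤ w e)
    (D : Finset V) {e f : E} (hef : e ≠ f) {x y x' y' : V}
    (h : (l e = x ∧ r e = y) ∨ (l e = y ∧ r e = x)) (hx : x ∉ D)
    (h' : (l f = x' ∧ r f = y') ∨ (l f = y' ∧ r f = x')) (hx' : x' ∉ D) :
    (∑ A ∈ univ.filter (fun A : Finset E => e ∈ A ∧ f ∈ A),
        (∏ g ∈ A, w g) * val q ∅ D (con l r A)) * fk l r w q ∅ D ≤
      fkOn l r w q ∅ D e * fkOn l r w q ∅ D f := by
  rw [sum_both w q ∅ D hef h hx h' hx', fkOn_eq w q ∅ D h hx, fkOn_eq w q ∅ D h' hx',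
    fk_split w q ∅ D h hx, fk_split (off w e) q ∅ D h' hx',
    fk_split (off w e) q ∅ (D.erase y) h' (fun h2 => hx' (mem_of_mem_erase h2)),
    fk_split (off w f) q ∅ (D.erase y') h (fun h2 => hx (mem_of_mem_erase h2)), off_off w e f]
  have h1 : off w e f = w f := by rw [off, if_neg hef.symm]
  have h2 : off w f e = w e := by rw [off, if_neg hef]
  have h3 : (D.erase y').erase y = (D.erase y).erase y' := erase_right_comm
  rw [h1, h2, h3]
  have h4 := fk_four (l := l) (r := r) hq hq1 (off_nonneg (off_nonneg hw e) f) D y y'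
  rw [h3] at h4
  have h5 : 0 ≤ w e * w f := mul_nonneg (hw e) (hw f)
  nlinarith [mul_nonneg h5 (sub_nonneg.2 h4)]

end finite

end Vale.Agent.P167.R2.H68
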