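import Mathlib

/-!
# P167: totally monotone set functions

`TMon V₀ f`: on the subsets `D` of `V₀`, `f D` is the sum of nonnegative numbers `a R`, `R ⊆ D`.
Main result: if `X > 0` satisfies `X D = X (D - x) - ∑_{x ∈ U ⊆ D} c U * X (D - U)` with `c ≥ 0`,
then `D ↦ X (D - R) / X D` is totally monotone.
-/

namespace Vale.Agent.P167.R2.H68

open Finset

variable {V : Type*}

/-- `f` is totally monotone on the subsets of `V₀` -/
def TMon (V₀ : Finset V) (f : Finset V → ℝ) : Prop :=
  ∃ a : Finset V → ℝ, (∀ R, 0 ≤ a R) ∧ ∀ D ⊆ V₀, f D = ∑ R ∈ D.powerset, a R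

theorem TMon.congr {V₀ : Finset V} {f g : Finset V → ℝ} (h : TMon V₀ f)
    (hfg : ∀ D ⊆ V₀, g D = f D) : TMon V₀ g := by
  obtain ⟨a, ha, hf⟩ := h
  exact ⟨a, ha, fun D hD => (hfg D hD).trans (hf D hD)⟩

theorem TMon.mono {V₀ V₁ : Finset V} {f : Finset V → ℝ} (h : TMon V₁ f) (h01 : V₀ ⊆ V₁) :
    TMon V₀ f := by
  obtain ⟨a, ha, hf⟩ := h
  exact ⟨a, ha, fun D hD => hf D (hD.trans h01)⟩

theorem TMon.nonneg {V₀ : Finset V} {f : Finset V → ℝ} (h : TMon V₀ f) {D : Finset V}
    (hD : D ⊆ V₀) : 0 ≤ f D := by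
  obtain ⟨a, ha, hf⟩ := h
  rw [hf D hD]
  exact sum_nonneg fun R _ => ha R

theorem TMon.le {V₀ : Finset V} {f : Finset V → ℝ} (h : TMon V₀ f) {D D' : Finset V}
    (hDD' : D ⊆ D') (hD : D' ⊆ V₀) : f D ≤ f D' := by
  obtain ⟨a, ha, hf⟩ := h
  rw [hf D (hDD'.trans hD), hf D' hD]
  exact sum_le_sum_of_subset_of_nonneg (powerset_mono.2 hDD') fun R _ _ => ha R

theorem tmon_zero (V₀ : Finset V) : TMon V₀ (fun _ => 0) :=
  ⟨fun _ => 0, fun _ => le_rfl, fun D _ => by simp⟩

theorem TMon.add {V₀ : Finset V} {f g : Finset V → ℝ} (hf : TMon V₀ f) (hg : TMon V₀ g) :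
    TMon V₀ (fun D => f D + g D) := by
  obtain ⟨a, ha, hf⟩ := hf
  obtain ⟨b, hb, hg⟩ := hg
  refine ⟨fun R => a R + b R, fun R => add_nonneg (ha R) (hb R), fun D hD => ?_⟩
  beta_reduce
  rw [hf D hD, hg D hD, sum_add_distrib]

theorem TMon.const_mul {V₀ : Finset V} {f : Finset V → ℝ} (hf : TMon V₀ f) {c : ℝ}
    (hc : 0 ≤ c) : TMon V₀ (fun D => c * f D) := by
  obtain ⟨a, ha, hf⟩ := hf
  refine ⟨fun R => c * a R, fun R => mul_nonneg hc (ha R), fun D hD => ?_⟩
  beta_reduce
  rw [hf D hD, mul_sum]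

theorem tmon_sum {V₀ : Finset V} {κ : Type*} (s : Finset κ) {f : κ → Finset V → ℝ}
    (hf : ∀ k ∈ s, TMon V₀ (f k)) : TMon V₀ (fun D => ∑ k ∈ s, f k D) := by
  classical
  induction s using Finset.induction_on with
  | empty => simpa using tmon_zero V₀
  | insert k s hk ih =>
    refine ((hf k (mem_insert_self k s)).add
      (ih fun k' hk' => hf k' (mem_insert_of_mem hk'))).congr fun D _ => ?_
    rw [sum_insert hk]

variable [DecidableEq V]

/-- the indicator of `U ⊆ D` -/
theorem tmon_indicator (V₀ U : Finset V) : TMon V₀ (fun D => if U ⊆ D then 1 else 0) := by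
  refine ⟨fun R => if R = U then 1 else 0, fun R => ?_, fun D _ => ?_⟩
  · beta_reduce; split_ifs <;> norm_num
  · beta_reduce
    rw [sum_ite_eq']
    simp only [mem_powerset]

theorem tmon_one (V₀ : Finset V) : TMon V₀ (fun _ => 1) :=
  (tmon_indicator V₀ ∅).congr fun D _ => by simp

/-- the coefficients of a product -/
def pairs (R : Finset V) : Finset (Finset V × Finset V) :=
  (R.powerset ×ˢ R.powerset).filter (fun p => p.1 ∪ p.2 = R)

theorem mem_pairs {R : Finset V} {p : Finset V × Finset V} : p ∈ pairs R ↔ p.1 ∪ p.2 = R := by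
  rw [pairs, mem_filter, mem_product, mem_powerset, mem_powerset]
  refine ⟨fun h => h.2, fun h => ⟨⟨?_, ?_⟩, h⟩⟩
  · rw [← h]; exact subset_union_left
  · rw [← h]; exact subset_union_right

theorem sum_powerset_mul (a b : Finset V → ℝ) (D : Finset V) :
    (∑ R ∈ D.powerset, a R) * (∑ R ∈ D.powerset, b R) =
      ∑ R ∈ D.powerset, ∑ p ∈ pairs R, a p.1 * b p.2 := by
  rw [sum_mul_sum, ← sum_product', sum_sigma']
  refine sum_nbij' (fun p => ⟨p.1 ∪ p.2, p⟩) (fun x => x.2) ?_ ?_ ?_ ?_ ?_
  · rintro ⟨A, B⟩ h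
    simp only [mem_product, mem_powerset] at h
    simp only [mem_sigma, mem_pairs, mem_powerset]
    exact ⟨union_subset h.1 h.2, trivial⟩
  · rintro ⟨R, A, B⟩ h
    simp only [mem_sigma, mem_pairs, mem_powerset] at h
    obtain ⟨h1, h2⟩ := h
    subst h2
    simp only [mem_product, mem_powerset]
    exact ⟨subset_union_left.trans h1, subset_union_right.trans h1⟩
  · rintro ⟨A, B⟩ _
    rfl
  · rintro ⟨R, A, B⟩ h
    simp only [mem_sigma, mem_pairs, mem_powerset] at h
    obtain ⟨_, h2⟩ := h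
    subst h2
    rfl
  · rintro ⟨A, B⟩ _
    rfl

theorem TMon.mul {V₀ : Finset V} {f g : Finset V → ℝ} (hf : TMon V₀ f) (hg : TMon V₀ g) :
    TMon V₀ (fun D => f D * g D) := by
  obtain ⟨a, ha, hf⟩ := hf
  obtain ⟨b, hb, hg⟩ := hg
  refine ⟨fun R => ∑ p ∈ pairs R, a p.1 * b p.2,
    fun R => sum_nonneg fun p _ => mul_nonneg (ha _) (hb _), fun D hD => ?_⟩
  beta_reduce
  rw [hf D hD, hg D hD, sum_powerset_mul]

theorem TMon.comp_sdiff {V₀ V₁ : Finset V} {f : Finset V → ℝ} (hf : TMon V₁ f) (U : Finset V)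
    (h : V₀ \ U ⊆ V₁) : TMon V₀ (fun D => f (D \ U)) := by
  obtain ⟨a, ha, hf⟩ := hf
  refine ⟨fun R => if Disjoint R U then a R else 0, fun R => ?_, fun D hD => ?_⟩
  · beta_reduce; split_ifs <;> simp [ha]
  beta_reduce
  rw [hf _ ((sdiff_subset_sdiff hD le_rfl).trans h), ← sum_filter]
  refine sum_congr ?_ fun _ _ => rfl
  ext R
  rw [mem_filter, mem_powerset, mem_powerset, subset_sdiff]

/-- the Moebius inverse -/
noncomputable def mob (f : Finset V → ℝ) (R : Finset V) : ℝ :=
  Finset.strongInduction (p := fun _ => ℝ)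
    (fun R ih => f R - ∑ S : R.ssubsets, ih S.1 (mem_ssubsets.1 S.2)) R

theorem mob_eq (f : Finset V → ℝ) (R : Finset V) :
    mob f R = f R - ∑ S ∈ R.ssubsets, mob f S := by
  rw [mob, Finset.strongInduction_eq, ← sum_coe_sort R.ssubsets]
  rfl

theorem powerset_eq_insert (R : Finset V) : R.powerset = insert R R.ssubsets := by
  rw [ssubsets, insert_erase (mem_powerset_self R)]

theorem notMem_ssubsets_self (R : Finset V) : R ∉ R.ssubsets := by
  rw [ssubsets]; exact notMem_erase _ _

theorem sum_mob (f : Finset V → ℝ) (D : Finset V) : ∑ R ∈ D.powerset, mob f R = f D := by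
  rw [powerset_eq_insert, sum_insert (notMem_ssubsets_self D), mob_eq]
  ring

theorem coeff_unique {V₀ : Finset V} {a b : Finset V → ℝ}
    (h : ∀ D ⊆ V₀, ∑ R ∈ D.powerset, a R = ∑ R ∈ D.powerset, b R) :
    ∀ R ⊆ V₀, a R = b R := by
  intro R
  induction R using Finset.strongInduction with
  | H R ih =>
    intro hR
    have h1 := h R hR
    rw [powerset_eq_insert, sum_insert (notMem_ssubsets_self R),
      sum_insert (notMem_ssubsets_self R)] at h1
    have h2 : ∑ S ∈ R.ssubsets, a S = ∑ S ∈ R.ssubsets, b S := by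
      refine sum_congr rfl fun S hS => ?_
      have h3 := mem_ssubsets.1 hS
      exact ih S h3 (h3.subset.trans hR)
    rw [h2] at h1
    exact add_right_cancel h1

/-- `1 / (1 - τ)` is totally monotone if `τ` is and `τ < 1` -/
theorem TMon.inv_one_sub {V₀ : Finset V} {τ : Finset V → ℝ} (hτ : TMon V₀ τ)
    (h1 : ∀ D ⊆ V₀, τ D < 1) : TMon V₀ (fun D => 1 / (1 - τ D)) := by
  obtain ⟨t, ht, hτ⟩ := hτ
  set g : Finset V → ℝ := fun D => 1 / (1 - τ D) with hg
  have hfun : ∀ D ⊆ V₀, g D = 1 + τ D * g D := by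
    intro D hD
    have := sub_pos.2 (h1 D hD)
    rw [hg]
    field_simp
    ring
  have hcoef : ∀ R ⊆ V₀, mob g R =
      (if R = ∅ then 1 else 0) + ∑ p ∈ pairs R, t p.1 * mob g p.2 := by
    refine coeff_unique fun D hD => ?_
    rw [sum_mob, hfun D hD, sum_add_distrib, sum_ite_eq', if_pos (empty_mem_powerset D),
      ← sum_powerset_mul, sum_mob, ← hτ D hD]
  have hnn : ∀ R ⊆ V₀, 0 ≤ mob g R := by
    intro R
    induction R using Finset.strongInduction with
    | H R ih =>
      intro hR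
      have h2 := hcoef R hR
      have h3 : ∑ p ∈ pairs R, t p.1 * mob g p.2 =
          τ R * mob g R + ∑ p ∈ (pairs R).filter (fun p => p.2 ≠ R), t p.1 * mob g p.2 := by
        rw [← sum_filter_add_sum_filter_not (pairs R) (fun p => p.2 = R)]
        congr 1
        rw [hτ R hR, sum_mul]
        refine sum_nbij' (fun p => p.1) (fun S => (S, R)) ?_ ?_ ?_ ?_ ?_
        · rintro ⟨A, B⟩ h
          rw [mem_filter, mem_pairs] at h
          rw [mem_powerset]
          show A ⊆ R
          rw [← h.1]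
          exact subset_union_left
        · intro S hS
          rw [mem_filter, mem_pairs]
          exact ⟨union_eq_right.2 (mem_powerset.1 hS), rfl⟩
        · rintro ⟨A, B⟩ h
          rw [mem_filter] at h
          exact Prod.ext rfl h.2.symm
        · intro S _
          rfl
        · rintro ⟨A, B⟩ h
          rw [mem_filter] at h
          show t A * mob g B = t A * mob g R
          rw [show B = R from h.2]
      have h4 : 0 ≤ ∑ p ∈ (pairs R).filter (fun p => p.2 ≠ R), t p.1 * mob g p.2 := by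
        refine sum_nonneg ?_
        rintro ⟨A, B⟩ h
        rw [mem_filter, mem_pairs] at h
        have h5 : B ⊆ R := by rw [← h.1]; exact subset_union_right
        exact mul_nonneg (ht _) (ih B (h5.ssubset_of_ne h.2) (h5.trans hR))
      have h5 : (0 : ℝ) ≤ if R = ∅ then 1 else 0 := by split_ifs <;> norm_num
      have h6 : 0 < 1 - τ R := sub_pos.2 (h1 R hR)
      have h7 : 0 ≤ (1 - τ R) * mob g R := by
        have : (1 - τ R) * mob g R = (if R = ∅ then 1 else 0) +
            ∑ p ∈ (pairs R).filter (fun p => p.2 ≠ R), t p.1 * mob g p.2 := by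
          rw [h3] at h2
          linear_combination h2
        rw [this]
        exact add_nonneg h5 h4
      exact nonneg_of_mul_nonneg_right h7 h6
  refine ⟨fun R => if R ⊆ V₀ then mob g R else 0, fun R => ?_, fun D hD => ?_⟩
  · beta_reduce
    split_ifs with h
    · exact hnn R h
    · exact le_rfl
  · rw [← sum_mob g D]
    refine sum_congr rfl fun R hR => ?_
    beta_reduce
    rw [if_pos ((mem_powerset.1 hR).trans hD)]

section ratio

variable {X c : Finset V → ℝ}

/-- the ratios for one point give the ratios for all sets -/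
theorem tmon_ratio_of {V₀ : Finset V} (hX : ∀ D, 0 < X D)
    (h : ∀ x, TMon V₀ (fun D => X (D.erase x) / X D)) (R : Finset V) :
    TMon V₀ (fun D => X (D \ R) / X D) := by
  induction R using Finset.induction_on with
  | empty =>
    refine (tmon_one V₀).congr fun D _ => ?_
    rw [sdiff_empty, div_self (hX D).ne']
  | insert y R _ ih =>
    refine (((h y).comp_sdiff (V₀ := V₀) R sdiff_subset).mul ih).congr fun D _ => ?_
    have h1 : D \ insert y R = (D \ R).erase y := by
      ext z
      simp only [mem_sdiff, mem_insert, mem_erase]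
      tauto
    rw [h1, div_mul_div_cancel₀ (hX _).ne']

/-- **Total monotonicity of the one point ratios.** -/
theorem tmon_erase (hX : ∀ D, 0 < X D) (hc : ∀ U, 0 ≤ c U)
    (hrec : ∀ D, ∀ x ∈ D,
      X D = X (D.erase x) - ∑ U ∈ D.powerset.filter (fun U => x ∈ U), c U * X (D \ U))
    (V₀ : Finset V) (x : V) : TMon V₀ (fun D => X (D.erase x) / X D) := by
  have key : ∀ n : ℕ, ∀ V₀ : Finset V, V₀.card ≤ n → ∀ x,
      TMon V₀ (fun D => X (D.erase x) / X D) := by
    intro n
    induction n with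
    | zero =>
      intro V₀ hV x
      have : V₀ = ∅ := card_eq_zero.1 (Nat.le_zero.1 hV)
      subst this
      refine (tmon_one ∅).congr fun D hD => ?_
      rw [subset_empty.1 hD]
      simp [(hX ∅).ne']
    | succ n ih =>
      intro V₀ hV x
      by_cases hx : x ∈ V₀
      swap
      · refine (tmon_one V₀).congr fun D hD => ?_
        rw [erase_eq_of_notMem fun h => hx (hD h), div_self (hX D).ne']
      have hcard : (V₀.erase x).card ≤ n := by
        rw [card_erase_of_mem hx]; omega
      have hratio : ∀ R, TMon (V₀.erase x) (fun D => X (D \ R) / X D) :=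
        tmon_ratio_of hX (ih _ hcard)
      -- the function `τ`
      have hτ : TMon V₀ (fun D => ∑ U ∈ V₀.powerset.filter (fun U => x ∈ U),
          c U * ((if U ⊆ D then 1 else 0) *
            (X ((D \ {x}) \ U) / X (D \ {x})))) := by
        refine tmon_sum _ fun U _ => ?_
        refine TMon.const_mul ((tmon_indicator V₀ U).mul ?_) (hc U)
        refine (hratio U).comp_sdiff {x} ?_
        rw [sdiff_singleton_eq_erase]
      have hval : ∀ D ⊆ V₀, x ∈ D → (∑ U ∈ V₀.powerset.filter (fun U => x ∈ U),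
          c U * ((if U ⊆ D then 1 else 0) * (X ((D \ {x}) \ U) / X (D \ {x})))) =
          (∑ U ∈ D.powerset.filter (fun U => x ∈ U), c U * X (D \ U)) / X (D.erase x) := by
        intro D hD hxD
        rw [sum_div]
        have h1 : D.powerset.filter (fun U => x ∈ U) =
            (V₀.powerset.filter (fun U => x ∈ U)).filter (fun U => U ⊆ D) := by
          ext U
          simp only [mem_filter, mem_powerset]
          exact ⟨fun h => ⟨⟨h.1.trans hD, h.2⟩, h.1⟩, fun h => ⟨h.2, h.1.2⟩⟩
        rw [h1, sum_filter (p := fun U => U ⊆ D)]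
        refine sum_congr rfl fun U hU => ?_
        rw [mem_filter] at hU
        have h2 : (D \ {x}) \ U = D \ U := by
          ext z
          simp only [mem_sdiff, mem_singleton]
          constructor
          · rintro ⟨⟨h3, _⟩, h4⟩; exact ⟨h3, h4⟩
          · rintro ⟨h3, h4⟩; exact ⟨⟨h3, fun h5 => h4 (h5 ▸ hU.2)⟩, h4⟩
        rw [h2, sdiff_singleton_eq_erase]
        split_ifs
        · rw [one_mul, mul_div_assoc]
        · rw [zero_mul, mul_zero]
      have hval' : ∀ D ⊆ V₀, (1 - ∑ U ∈ V₀.powerset.filter (fun U => x ∈ U),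
          c U * ((if U ⊆ D then 1 else 0) * (X ((D \ {x}) \ U) / X (D \ {x})))) =
          X D / X (D.erase x) := by
        intro D hD
        by_cases hxD : x ∈ D
        · rw [hval D hD hxD, eq_div_iff (hX _).ne', sub_mul, one_mul,
            div_mul_cancel₀ _ (hX _).ne', ← hrec D x hxD]
        · rw [erase_eq_of_notMem hxD, div_self (hX D).ne', sum_eq_zero, sub_zero]
          intro U hU
          rw [mem_filter] at hU
          rw [if_neg fun h => hxD (h hU.2), zero_mul, mul_zero]
      refine (hτ.inv_one_sub fun D hD => ?_).congr fun D hD => ?_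
      · have h1 := hval' D hD
        have h2 : 0 < X D / X (D.erase x) := div_pos (hX _) (hX _)
        rw [← h1] at h2
        linarith
      · rw [hval' D hD, one_div_div]
  exact key _ V₀ le_rfl x

/-- **Total monotonicity of the ratios.** -/
theorem tmon_ratio (hX : ∀ D, 0 < X D) (hc : ∀ U, 0 ≤ c U)
    (hrec : ∀ D, ∀ x ∈ D,
      X D = X (D.erase x) - ∑ U ∈ D.powerset.filter (fun U => x ∈ U), c U * X (D \ U))
    (V₀ R : Finset V) : TMon V₀ (fun D => X (D \ R) / X D) :=
  tmon_ratio_of hX (tmon_erase hX hc hrec V₀) R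

/-- **Total monotonicity of the hitting functional.** -/
theorem tmon_hit (hX : ∀ D, 0 < X D) (hc : ∀ U, 0 ≤ c U)
    (hrec : ∀ D, ∀ x ∈ D,
      X D = X (D.erase x) - ∑ U ∈ D.powerset.filter (fun U => x ∈ U), c U * X (D \ U))
    {d : Finset V → ℝ} (hd : ∀ R, 0 ≤ d R) (V₀ : Finset V) :
    TMon V₀ (fun D => (∑ R ∈ D.powerset, d R * X (D \ R)) / X D) := by
  have h1 : TMon V₀ (fun D => ∑ R ∈ V₀.powerset,
      d R * ((if R ⊆ D then 1 else 0) * (X (D \ R) / X D))) :=
    tmon_sum _ fun R _ => TMon.const_mul ((tmon_indicator V₀ R).mul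
      (tmon_ratio hX hc hrec V₀ R)) (hd R)
  refine h1.congr fun D hD => ?_
  rw [sum_div]
  have h2 : D.powerset = V₀.powerset.filter (fun R => R ⊆ D) := by
    ext R
    simp only [mem_filter, mem_powerset]
    exact ⟨fun h => ⟨h.trans hD, h⟩, fun h => h.2⟩
  rw [h2, sum_filter]
  refine sum_congr rfl fun R _ => ?_
  split_ifs
  · rw [one_mul, mul_div_assoc]
  · rw [zero_mul, mul_zero]

end ratio

end Vale.Agent.P167.R2.H68
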