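import Vale.Agent.P167.R2.H68.Wt
import Vale.Agent.P167.R2.H68.TM

/-!
# P167: expansion of the random-cluster sums over sets of vertices
-/

namespace Vale.Agent.P167.R2.H68

open Finset

section closed

variable {V : Type*} [Fintype V] [DecidableEq V]

/-- `B` is a union of classes of `s` -/
def Closed (s : Setoid V) (B : Finset V) : Prop := ∀ x ∈ B, ∀ y, s x y → y ∈ B

omit [Fintype V] [DecidableEq V] in
theorem Closed.not {s : Setoid V} {B : Finset V} (h : Closed s B) {x y : V} (hx : x ∉ B)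
    (hxy : s x y) : y ∉ B := fun hy => hx (h y hy x (s.symm hxy))

/-- the weight of a configuration with classes `s`: no class meets both `T` and the complement of
`D`, and each class inside `D` has weight `q` -/
noncomputable def val (q : ℝ) (T D : Finset V) (s : Setoid V) : ℝ :=
  open Classical in
  if ∃ t ∈ T, ∃ y, y ∉ D ∧ s t y then 0 else q ^ miss ((Dᶜ : Finset V) : Set V) s

open Classical in
theorem val_eq_prod (q : ℝ) (T D : Finset V) (s : Setoid V) :
    val q T D s = ∏ C ∈ (univ : Finset V).image (cls s),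
      (if C ⊆ D then q else if Disjoint C T then 1 else 0) := by
  rw [val]
  split_ifs with h
  · obtain ⟨t, ht, y, hy, hty⟩ := h
    symm
    refine prod_eq_zero (mem_image_of_mem _ (mem_univ t)) ?_
    rw [if_neg fun h => hy (h (mem_cls.2 hty)), if_neg]
    rw [not_disjoint_iff]
    exact ⟨t, self_mem_cls s t, ht⟩
  · push Not at h
    have h1 : ∀ C ∈ (univ : Finset V).image (cls s),
        (if C ⊆ D then q else if Disjoint C T then 1 else 0) = if C ⊆ D then q else 1 := by
      intro C hC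
      obtain ⟨x, _, rfl⟩ := mem_image.1 hC
      split_ifs with h2 h3
      · rfl
      · rfl
      · exfalso
        rw [not_disjoint_iff] at h3
        obtain ⟨t, ht1, ht2⟩ := h3
        apply h2
        intro y hy
        by_contra hyD
        exact h t ht2 y hyD (s.trans (s.symm (mem_cls.1 ht1)) (mem_cls.1 hy))
    rw [prod_congr rfl h1, prod_ite, prod_const, prod_const_one, mul_one]
    congr 1
    refine ncard_eq_of_cls s _ _ (fun x => ?_) fun C hC => ?_
    · rw [mem_missSet, mem_filter]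
      constructor
      · intro h2
        refine ⟨mem_image_of_mem _ (mem_univ x), fun y hy => ?_⟩
        by_contra hyD
        exact h2 y (by simpa using hyD) (s.symm (mem_cls.1 hy))
      · rintro ⟨_, h2⟩ k hk hkx
        have hk' : k ∉ D := by simpa using hk
        exact hk' (h2 (mem_cls.2 (s.symm hkx)))
    · obtain ⟨x, _, rfl⟩ := mem_image.1 (mem_filter.1 hC).1
      exact ⟨x, rfl⟩

open Classical in
/-- expansion over the unions of classes -/
theorem val_eq_sum (q s : ℝ) (hqs : q = 1 - s) (T D : Finset V) (σ : Setoid V) :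
    val q T D σ = ∑ B ∈ D.powerset.filter (fun B => T ⊆ B ∧ Closed σ B),
      prodCls (phi q s T) σ B := by
  set Q := (univ : Finset V).image (cls σ) with hQ
  have h1 : ∀ C ∈ Q, (if C ⊆ D then q else if Disjoint C T then (1 : ℝ) else 0) =
      (if C ⊆ D then phi q s T C else 0) + (if Disjoint C T then 1 else 0) := by
    intro C _
    rw [phi]
    split_ifs
    · rw [hqs]; ring
    · ring
    · ring
    · ring
  rw [val_eq_prod, prod_congr rfl h1, prod_add]
  -- members of `Q`
  have hmem : ∀ C ∈ Q, ∀ x ∈ C, cls σ x = C := by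
    intro C hC x hx
    obtain ⟨y, _, rfl⟩ := mem_image.1 hC
    exact cls_eq_iff.2 (σ.symm (mem_cls.1 hx))
  have hne : ∀ C ∈ Q, C.Nonempty := by
    intro C hC
    obtain ⟨y, _, rfl⟩ := mem_image.1 hC
    exact ⟨y, self_mem_cls σ y⟩
  have hxQ : ∀ x, cls σ x ∈ Q := fun x => mem_image_of_mem _ (mem_univ x)
  -- only the good families contribute
  set good : Finset (Finset V) → Prop := fun 𝒞 =>
    (∀ C ∈ 𝒞, C ⊆ D) ∧ ∀ C ∈ Q, C ∉ 𝒞 → Disjoint C T with hgood
  have h2 : ∀ 𝒞 ∈ Q.powerset, ((∏ C ∈ 𝒞, if C ⊆ D then phi q s T C else 0) *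
      ∏ C ∈ Q \ 𝒞, if Disjoint C T then (1 : ℝ) else 0) =
      if good 𝒞 then ∏ C ∈ 𝒞, phi q s T C else 0 := by
    intro 𝒞 _
    split_ifs with hg
    · rw [prod_congr rfl fun C hC => if_pos (hg.1 C hC)]
      rw [prod_eq_one (s := Q \ 𝒞), mul_one]
      intro C hC
      rw [mem_sdiff] at hC
      exact if_pos (hg.2 C hC.1 hC.2)
    · rw [hgood, not_and_or] at hg
      rcases hg with hg | hg
      · push Not at hg
        obtain ⟨C, hC, hCD⟩ := hg
        rw [prod_eq_zero hC (if_neg hCD), zero_mul]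
      · push Not at hg
        obtain ⟨C, hC, hC', hCT⟩ := hg
        rw [prod_eq_zero (mem_sdiff.2 ⟨hC, hC'⟩) (if_neg hCT), mul_zero]
  rw [sum_congr rfl h2, ← sum_filter]
  have hcls : ∀ B : Finset V, Closed σ B → (B.image (cls σ)).biUnion id = B := by
    intro B hB
    ext y
    rw [mem_biUnion]
    constructor
    · rintro ⟨C, hC, hy⟩
      obtain ⟨x, hx, rfl⟩ := mem_image.1 hC
      exact hB x hx y (mem_cls.1 hy)
    · intro hy
      exact ⟨cls σ y, mem_image_of_mem _ hy, self_mem_cls σ y⟩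
  have himg : ∀ 𝒞 ⊆ Q, (𝒞.biUnion id).image (cls σ) = 𝒞 := by
    intro 𝒞 h𝒞
    ext C
    rw [mem_image]
    constructor
    · rintro ⟨x, hx, rfl⟩
      obtain ⟨C, hC, hxC⟩ := mem_biUnion.1 hx
      rw [hmem C (h𝒞 hC) x hxC]
      exact hC
    · intro hC
      obtain ⟨x, hx⟩ := hne C (h𝒞 hC)
      exact ⟨x, mem_biUnion.2 ⟨C, hC, hx⟩, hmem C (h𝒞 hC) x hx⟩
  refine sum_nbij' (fun 𝒞 => 𝒞.biUnion id) (fun B => B.image (cls σ)) ?_ ?_ ?_ ?_ ?_
  · intro 𝒞 h
    rw [mem_filter, mem_powerset] at h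
    obtain ⟨h3, h4, h5⟩ := h
    rw [mem_filter, mem_powerset]
    refine ⟨?_, ?_, ?_⟩
    · intro x hx
      obtain ⟨C, hC, hxC⟩ := mem_biUnion.1 hx
      exact h4 C hC hxC
    · intro t ht
      by_contra hcon
      have h6 : cls σ t ∉ 𝒞 := fun h => hcon (mem_biUnion.2 ⟨_, h, self_mem_cls σ t⟩)
      exact disjoint_left.1 (h5 _ (hxQ t) h6) (self_mem_cls σ t) ht
    · intro x hx y hxy
      obtain ⟨C, hC, hxC⟩ := mem_biUnion.1 hx
      refine mem_biUnion.2 ⟨C, hC, ?_⟩
      have h6 := hmem C (h3 hC) x hxC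
      show y ∈ C
      rw [← h6]
      exact mem_cls.2 hxy
  · intro B h
    rw [mem_filter, mem_powerset] at h
    obtain ⟨h3, h4, h5⟩ := h
    rw [mem_filter, mem_powerset]
    refine ⟨image_subset_image (subset_univ B), ?_, ?_⟩
    · intro C hC
      obtain ⟨x, hx, rfl⟩ := mem_image.1 hC
      exact fun y hy => h3 (h5 x hx y (mem_cls.1 hy))
    · intro C hC hCB
      rw [disjoint_left]
      intro t ht htT
      apply hCB
      rw [← hmem C hC t ht]
      exact mem_image_of_mem _ (h4 htT)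
  · intro 𝒞 h
    rw [mem_filter, mem_powerset] at h
    exact himg 𝒞 h.1
  · intro B h
    rw [mem_filter, mem_powerset] at h
    exact hcls B h.2.2
  · intro 𝒞 h
    rw [mem_filter, mem_powerset] at h
    rw [prodCls, himg 𝒞 h.1]

end closed

section sums

variable {V : Type*} [Fintype V] [DecidableEq V] {ι : Type*} [Fintype ι] [DecidableEq ι]
  (a b : ι → V) (w : ι → ℝ)

/-- the random-cluster sum: no connection between `T` and the complement of `D`; the classes
inside `D` have weight `q` -/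
noncomputable def fk (q : ℝ) (T D : Finset V) : ℝ :=
  ∑ A : Finset ι, (∏ e ∈ A, w e) * val q T D (con a b A)

/-- all configurations -/
noncomputable def zz (E : Finset ι) : ℝ := ∏ e ∈ E, (1 + w e)

/-- the sum over pairs of edge sets inside `B` -/
noncomputable def beta (φ : Finset V → ℝ) (B : Finset V) : ℝ :=
  ∑ H ∈ (ins a b B).powerset, (∏ e ∈ H, w e) * gH a b (fun e => 1 + w e) φ B H

variable {a b w}

omit [Fintype ι] in
theorem sum_supersets {A E : Finset ι} (hAE : A ⊆ E) :
    ∑ H ∈ E.powerset.filter (fun H => A ⊆ H), ∏ e ∈ H, w e =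
      (∏ e ∈ A, w e) * ∏ e ∈ E \ A, (1 + w e) := by
  rw [prod_one_add, mul_sum]
  refine sum_nbij' (fun H => H \ A) (fun H => A ∪ H) ?_ ?_ ?_ ?_ ?_
  · intro H hH
    rw [mem_filter, mem_powerset] at hH
    rw [mem_powerset]
    exact sdiff_subset_sdiff hH.1 le_rfl
  · intro H hH
    rw [mem_powerset] at hH
    rw [mem_filter, mem_powerset]
    exact ⟨union_subset hAE (hH.trans sdiff_subset), subset_union_left⟩
  · intro H hH
    rw [mem_filter, mem_powerset] at hH
    exact union_sdiff_of_subset hH.2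
  · intro H hH
    rw [mem_powerset] at hH
    show (A ∪ H) \ A = H
    rw [union_sdiff_left, Finset.sdiff_eq_self_iff_disjoint]
    exact (disjoint_sdiff.mono_right hH).symm
  · intro H hH
    rw [mem_filter, mem_powerset] at hH
    rw [← prod_union disjoint_sdiff, union_sdiff_of_subset hH.2]

/-- pairs of edge sets -/
theorem beta_eq (φ : Finset V → ℝ) (B : Finset V) :
    beta a b w φ B = zz w (ins a b B) *
      ∑ A ∈ (ins a b B).powerset, (∏ e ∈ A, w e) * prodCls φ (con a b A) B := by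
  rw [beta, mul_sum]
  simp_rw [gH, mul_sum]
  have h1 : ∑ H ∈ (ins a b B).powerset, ∑ A ∈ H.powerset,
      (∏ e ∈ H, w e) * ((∏ e ∈ A, (1 + w e)) * prodCls φ (con a b A) B) =
      ∑ A ∈ (ins a b B).powerset, ∑ H ∈ (ins a b B).powerset.filter (fun H => A ⊆ H),
      (∏ e ∈ H, w e) * ((∏ e ∈ A, (1 + w e)) * prodCls φ (con a b A) B) := by
    refine sum_comm' ?_
    intro H A
    simp only [mem_powerset, mem_filter]
    constructor
    · rintro ⟨h3, h4⟩; exact ⟨⟨h3, h4⟩, h4.trans h3⟩
    · rintro ⟨⟨h3, h4⟩, _⟩; exact ⟨h3, h4⟩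
  rw [h1]
  refine sum_congr rfl fun A hA => ?_
  have hA' := mem_powerset.1 hA
  rw [← sum_mul, sum_supersets hA', zz, ← prod_sdiff hA']
  ring

/-- expansion of the random-cluster sum -/
theorem fk_eq (q s : ℝ) (hqs : q = 1 - s) (hw : ∀ e, 0 ≤ w e) (T D : Finset V) :
    fk a b w q T D = ∑ B ∈ D.powerset.filter (fun B => T ⊆ B),
      zz w (ins a b Bᶜ) / zz w (ins a b B) * beta a b w (phi q s T) B := by
  classical
  have hzz : ∀ E : Finset ι, 0 < zz w E := fun E => prod_pos fun e _ => by linarith [hw e]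
  rw [fk]
  have h1 : ∀ A : Finset ι, (∏ e ∈ A, w e) * val q T D (con a b A) =
      ∑ B ∈ D.powerset.filter (fun B => T ⊆ B), (if Closed (con a b A) B then
        (∏ e ∈ A, w e) * prodCls (phi q s T) (con a b A) B else 0) := by
    intro A
    rw [val_eq_sum q s hqs, mul_sum, ← sum_filter, filter_filter]
  rw [sum_congr rfl fun A _ => h1 A, sum_comm]
  refine sum_congr rfl fun B _ => ?_
  rw [beta_eq]
  have h2 : zz w (ins a b Bᶜ) / zz w (ins a b B) * (zz w (ins a b B) *
      ∑ A ∈ (ins a b B).powerset, (∏ e ∈ A, w e) * prodCls (phi q s T) (con a b A) B) =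
      ∑ A ∈ (ins a b B).powerset, ∑ A' ∈ (ins a b Bᶜ).powerset,
        ((∏ e ∈ A, w e) * prodCls (phi q s T) (con a b A) B) * ∏ e ∈ A', w e := by
    have h3 := (hzz (ins a b B)).ne'
    rw [← sum_mul_sum, ← prod_one_add, ← zz]
    field_simp
  rw [h2]
  have hd : Disjoint (ins a b B) (ins a b Bᶜ) := disjoint_ins disjoint_compl_right
  have h3 : ∀ A₁ ∈ (ins a b B).powerset, ∀ A₂ ∈ (ins a b Bᶜ).powerset,
      ((∏ e ∈ A₁, w e) * prodCls (phi q s T) (con a b A₁) B) * ∏ e ∈ A₂, w e =
      (∏ e ∈ A₁ ∪ A₂, w e) * prodCls (phi q s T) (con a b (A₁ ∪ A₂)) B := by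
    intro A₁ hA₁ A₂ hA₂
    rw [mem_powerset] at hA₁ hA₂
    have hin : ∀ e ∈ A₁, a e ∈ (B : Set V) ∧ b e ∈ (B : Set V) := fun e he => mem_ins.1 (hA₁ he)
    have hout : ∀ e ∈ A₂, a e ∉ (B : Set V) ∧ b e ∉ (B : Set V) := by
      intro e he
      have h3 := mem_ins.1 (hA₂ he)
      exact ⟨mem_compl.1 h3.1, mem_compl.1 h3.2⟩
    rw [prod_union (hd.mono hA₁ hA₂),
      prodCls_congr (s := con a b (A₁ ∪ A₂)) (s' := con a b A₁)]
    · ring
    · intro x hx
      ext y
      rw [mem_cls, mem_cls]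
      exact con_union_left hin hout hx
  rw [sum_congr rfl fun A₁ hA₁ => sum_congr rfl fun A₂ hA₂ => h3 A₁ hA₁ A₂ hA₂,
    ← sum_powerset_union hd
      (fun A => (∏ e ∈ A, w e) * prodCls (phi q s T) (con a b A) B), ← sum_filter]
  refine sum_congr ?_ fun _ _ => rfl
  ext A
  rw [mem_filter, mem_powerset]
  constructor
  · rintro ⟨_, h4⟩ e he
    have h5 : con a b A (a e) (b e) := con_edge he
    by_cases h6 : a e ∈ B
    · exact mem_union_left _ (mem_ins.2 ⟨h6, h4 _ h6 _ h5⟩)
    · exact mem_union_right _ (mem_ins.2 ⟨mem_compl.2 h6, mem_compl.2 (h4.not h6 h5)⟩)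
  · intro h4
    refine ⟨mem_univ _, fun x hx y hxy => ?_⟩
    refine con_mem (R := (B : Set V)) (fun e he => ?_) hxy hx
    rcases mem_union.1 (h4 he) with h5 | h5
    · rw [mem_ins] at h5
      exact iff_of_true h5.1 h5.2
    · rw [mem_ins, mem_compl, mem_compl] at h5
      exact iff_of_false h5.1 h5.2

end sums

end Vale.Agent.P167.R2.H68
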