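import Vale.Agent.P167.R2.H68.Dom

/-!
# P167: exploration comparison, one law for all domains, the wired limit
-/

namespace Vale.Agent.P167.R2.H68.Gen

open Finset Filter Topology
open Vale.Agent.P167.R2.H68 (con miss con_le_iff con_edge odds odds_nonneg)

section prob

variable {V E : Type*} {l r : E → V} {p : E → ℝ} {q : ℝ}

theorem weight_nonneg (hp : ∀ e, 0 ≤ p e ∧ p e < 1) (hq : 0 < q) (F : Finset E) (W : Set V)
    (A : Finset E) : 0 ≤ weight l r p q F W A := by
  rw [weight]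
  refine mul_nonneg (mul_nonneg (prod_nonneg fun e _ => (hp e).1)
    (prod_nonneg fun e _ => by linarith [(hp e).2])) (by positivity)

theorem sum_weight_pos (hp : ∀ e, 0 ≤ p e ∧ p e < 1) (hq : 0 < q) (F : Finset E) (W : Set V) :
    0 < ∑ A ∈ F.powerset, weight l r p q F W A := by
  refine sum_pos' (fun A _ => weight_nonneg hp hq F W A) ⟨∅, empty_mem_powerset F, ?_⟩
  rw [weight, prod_empty, one_mul]
  exact mul_pos (prod_pos fun e _ => by linarith [(hp e).2]) (by positivity)

theorem prob_nonneg (hp : ∀ e, 0 ≤ p e ∧ p e < 1) (hq : 0 < q) (F : Finset E) (W : Set V)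
    (ev : Finset E → Prop) : 0 ≤ prob l r p q F W ev := by
  rw [prob]
  exact div_nonneg (sum_nonneg fun A _ => weight_nonneg hp hq F W A) (sum_weight_pos hp hq F W).le

theorem prob_le_one (hp : ∀ e, 0 ≤ p e ∧ p e < 1) (hq : 0 < q) (F : Finset E) (W : Set V)
    (ev : Finset E → Prop) : prob l r p q F W ev ≤ 1 := by
  classical
  rw [prob, div_le_one (sum_weight_pos hp hq F W)]
  exact sum_le_sum_of_subset_of_nonneg (filter_subset _ _) fun A _ _ => weight_nonneg hp hq F W A

theorem prob_congr {F : Finset E} {W : Set V} {ev ev' : Finset E → Prop}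
    (h : ∀ A, ev A ↔ ev' A) : prob l r p q F W ev = prob l r p q F W ev' := by
  have : ev = ev' := funext fun A => propext (h A)
  rw [this]

theorem prob_and_add (F : Finset E) (W : Set V) (ev ev' : Finset E → Prop) :
    prob l r p q F W (fun A => ev A ∧ ev' A) + prob l r p q F W (fun A => ev A ∧ ¬ ev' A) =
      prob l r p q F W ev := by
  classical
  rw [prob, prob, prob, ← add_div]
  congr 1
  rw [← sum_filter_add_sum_filter_not (F.powerset.filter ev) ev', filter_filter, filter_filter]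
  congr!

theorem prob_true (hp : ∀ e, 0 ≤ p e ∧ p e < 1) (hq : 0 < q) (F : Finset E) (W : Set V) :
    prob l r p q F W (fun _ => True) = 1 := by
  classical
  rw [prob, div_eq_one_iff_eq (sum_weight_pos hp hq F W).ne']
  refine sum_congr ?_ fun _ _ => rfl
  ext A
  simp

theorem prob_hits (hp : ∀ e, 0 ≤ p e ∧ p e < 1) (hq : 0 < q) (F : Finset E) (D T : Finset V) :
    prob l r p q F (D : Set V)ᶜ (Hits l r (D : Set V)ᶜ T) =
      1 - fkI l r (odds p) q F T D / fkI l r (odds p) q F ∅ D := by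
  have h1 := prob_and_add (l := l) (r := r) (p := p) (q := q) F (D : Set V)ᶜ (fun _ => True)
    (Hits l r (D : Set V)ᶜ T)
  rw [prob_true hp hq] at h1
  have h2 : prob l r p q F (D : Set V)ᶜ (fun A => True ∧ Hits l r (D : Set V)ᶜ T A) =
      prob l r p q F (D : Set V)ᶜ (Hits l r (D : Set V)ᶜ T) :=
    prob_congr fun A => by simp
  have h3 : prob l r p q F (D : Set V)ᶜ (fun A => True ∧ ¬ Hits l r (D : Set V)ᶜ T A) =
      prob l r p q F (D : Set V)ᶜ (fun A => ¬ Hits l r (D : Set V)ᶜ T A) :=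
    prob_congr fun A => by simp
  rw [h2, h3, prob_miss_eq (fun e => (hp e).2) hq] at h1
  linarith

end prob

section final

variable {V E : Type*} {l r : E → V} {p : E → ℝ} {q : ℝ}

/-- comparison of two explored regions for the ratio -/
theorem ratio_explored (hp : ∀ e, 0 ≤ p e ∧ p e < 1) (hq : 0 < q) (hq1 : q ≤ 1)
    {F : Finset E} {D : Finset V} (T : Finset V) {O C O' C' : Finset E} [DecidableEq E]
    (h : Explored l r (D : Set V)ᶜ O C) (h' : Explored l r (D : Set V)ᶜ O' C')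
    (hO : O ⊆ O') (hC : C' ⊆ C) :
    fkI l r (odds p) q (F \ (O' ∪ C')) T (rest l r D O') /
        fkI l r (odds p) q (F \ (O' ∪ C')) ∅ (rest l r D O') ≤
      fkI l r (odds p) q (F \ (O ∪ C)) T (rest l r D O) /
        fkI l r (odds p) q (F \ (O ∪ C)) ∅ (rest l r D O) := by
  have hw : ∀ e, 0 ≤ odds p e := odds_nonneg (fun e => (hp e).1) (fun e => (hp e).2)
  have e1 := ratio_extra (l := l) (r := r) hw q (F := F \ (O' ∪ C')) (F₁ := F \ C')
    (sdiff_subset_sdiff subset_rfl subset_union_right) T (rest l r D O') (fun e he h1 => by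
      rw [Finset.mem_sdiff] at he ⊢
      refine ⟨he.1, fun h2 => ?_⟩
      rcases mem_union.1 h2 with h3 | h3
      · have := h'.left h3
        rcases h1 with h1 | h1
        · exact this.1 h1
        · exact this.2 h1
      · exact he.2 h3)
  have e2 := ratio_extra (l := l) (r := r) hw q (F := F \ (O ∪ C)) (F₁ := F \ C)
    (sdiff_subset_sdiff subset_rfl subset_union_right) T (rest l r D O) (fun e he h1 => by
      rw [Finset.mem_sdiff] at he ⊢
      refine ⟨he.1, fun h2 => ?_⟩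
      rcases mem_union.1 h2 with h3 | h3
      · have := h.left h3
        rcases h1 with h1 | h1
        · exact this.1 h1
        · exact this.2 h1
      · exact he.2 h3)
  rw [← e1, ← e2]
  classical
  refine (ratio_mono hw hq hq1 (F \ C') T (rest_anti hO)).trans ?_
  refine ratio_add hw hq hq1 (sdiff_subset_sdiff subset_rfl hC) T (rest l r D O) ?_
  intro e he he'
  rw [Finset.mem_sdiff] at he he'
  exact h.right (by_contra fun h1 => he' ⟨he.1, h1⟩)

open Classical in
/-- **Exploration comparison.** -/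
theorem exploration (hp : ∀ e, 0 ≤ p e ∧ p e < 1) (hq : 0 < q) (hq1 : q ≤ 1)
    {F : Finset E} {D : Finset V} (T : Finset V) {O C O' C' : Finset E}
    (h : Explored l r (D : Set V)ᶜ O C) (h' : Explored l r (D : Set V)ᶜ O' C')
    (hO : O ⊆ O') (hC : C' ⊆ C) (hOF : O' ⊆ F) (hCF : C ⊆ F) :
    prob l r p q F (D : Set V)ᶜ
        (fun A => Hits l r (D : Set V)ᶜ T A ∧ O ⊆ A ∧ Disjoint C A) *
      prob l r p q F (D : Set V)ᶜ (fun A => O' ⊆ A ∧ Disjoint C' A) ≤
    prob l r p q F (D : Set V)ᶜ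
        (fun A => Hits l r (D : Set V)ᶜ T A ∧ O' ⊆ A ∧ Disjoint C' A) *
      prob l r p q F (D : Set V)ᶜ (fun A => O ⊆ A ∧ Disjoint C A) := by
  have hZ := sum_weight_pos (l := l) (r := r) hp hq F (D : Set V)ᶜ
  set Z := ∑ A ∈ F.powerset, weight l r p q F (D : Set V)ᶜ A with hZdef
  have key : ∀ {O C : Finset E}, Explored l r (D : Set V)ᶜ O C → O ⊆ F → C ⊆ F →
      ∃ K z : ℝ, 0 ≤ K ∧ 0 < z ∧
        prob l r p q F (D : Set V)ᶜ (fun A => O ⊆ A ∧ Disjoint C A) = K * z / Z ∧
        prob l r p q F (D : Set V)ᶜ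
          (fun A => Hits l r (D : Set V)ᶜ T A ∧ O ⊆ A ∧ Disjoint C A) =
          K * z * (1 - fkI l r (odds p) q (F \ (O ∪ C)) T (rest l r D O) /
            fkI l r (odds p) q (F \ (O ∪ C)) ∅ (rest l r D O)) / Z := by
    intro O C h hO hC
    refine ⟨(∏ e ∈ O, p e) * ∏ e ∈ C, (1 - p e),
      ∑ A ∈ (F \ (O ∪ C)).powerset,
        weight l r p q (F \ (O ∪ C)) (rest l r D O : Set V)ᶜ A, ?_,
      sum_weight_pos hp hq _ _, ?_, ?_⟩
    · exact mul_nonneg (prod_nonneg fun e _ => (hp e).1)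
        (prod_nonneg fun e _ => by linarith [(hp e).2])
    · have h1 := sum_explored h p q F hO hC (fun _ => True)
      rw [prob, ← hZdef]
      congr 1
      refine Eq.trans (sum_congr ?_ fun _ _ => rfl)
        (h1.trans (congrArg _ (sum_congr ?_ fun _ _ => rfl))) <;>
      · ext A
        simp
    · have h1 := sum_explored h p q F hO hC (Hits l r (D : Set V)ᶜ T)
      have h2 := prob_hits (l := l) (r := r) hp hq (F \ (O ∪ C)) (rest l r D O) T
      have h3 := sum_weight_pos (l := l) (r := r) hp hq (F \ (O ∪ C))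
        (rest l r D O : Set V)ᶜ
      rw [prob, ← hZdef]
      congr 1
      rw [← h2, prob, mul_assoc, mul_div_cancel₀ _ h3.ne']
      refine Eq.trans (sum_congr ?_ fun _ _ => rfl)
        (h1.trans (congrArg _ (sum_congr ?_ fun _ _ => rfl)))
      · ext A
        simp only [mem_filter]
      · ext A
        simp only [mem_filter]
        rw [hits_rest h]
  obtain ⟨K, z, hK, hz, h1, h2⟩ := key h (hO.trans hOF) hCF
  obtain ⟨K', z', hK', hz', h1', h2'⟩ := key h' hOF (hC.trans hCF)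
  rw [h1, h2, h1', h2']
  have h3 := ratio_explored (F := F) hp hq hq1 T h h' hO hC
  have h4 : 0 ≤ K * z / Z * (K' * z' / Z) := by positivity
  have h5 := mul_le_mul_of_nonneg_left h3 h4
  have e1 : ∀ a b x : ℝ, a * (1 - x) / Z * (b / Z) = a / Z * (b / Z) * (1 - x) := by
    intro a b x; ring
  have e2 : ∀ a b x : ℝ, b * (1 - x) / Z * (a / Z) = a / Z * (b / Z) * (1 - x) := by
    intro a b x; ring
  rw [e1, e2]
  linarith

/-- **One law for all finite domains.** -/
theorem one_law (hp : ∀ e, 0 ≤ p e ∧ p e < 1) (hq : 0 < q) (hq1 : q ≤ 1)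
    {F : Finset V → Finset E} (hF : ∀ D e, e ∈ F D ↔ l e ∈ D ∨ r e ∈ D) (T : Finset V) :
    ∃ π : Finset V → ℝ, (∀ R, 0 ≤ π R) ∧ (∀ R, π R ≠ 0 → T ⊆ R) ∧
      (∀ s : Finset (Finset V), ∑ R ∈ s, π R ≤ 1) ∧ ∀ D : Finset V,
      prob l r p q (F D) (D : Set V)ᶜ (fun A => ¬ Hits l r (D : Set V)ᶜ T A) =
        ∑ R ∈ D.powerset, π R := by
  classical
  obtain ⟨π, h0, h1, h2⟩ := exists_set (l := l) (r := r)
    (odds_nonneg (fun e => (hp e).1) (fun e => (hp e).2)) hq hq1 (F := F)
    (fun D e => (hF D e).symm) T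
  have h3 : ∀ D : Finset V,
      prob l r p q (F D) (D : Set V)ᶜ (fun A => ¬ Hits l r (D : Set V)ᶜ T A) =
        ∑ R ∈ D.powerset, π R := fun D => by rw [prob_miss_eq (fun e => (hp e).2) hq, h2]
  refine ⟨π, h0, h1, fun s => ?_, h3⟩
  refine le_trans ?_ (prob_le_one (l := l) (r := r) hp hq (F (s.biUnion id))
    ((s.biUnion id : Finset V) : Set V)ᶜ
    (fun A => ¬ Hits l r ((s.biUnion id : Finset V) : Set V)ᶜ T A))
  rw [h3]
  refine sum_le_sum_of_subset_of_nonneg (fun R hR => ?_) fun R _ _ => h0 R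
  rw [mem_powerset]
  exact subset_biUnion_of_mem id hR

theorem hits_not_iff {W : Set V} {N : Finset V} {A : Finset E} :
    (¬ Hits l r W N A) ↔ ∀ x ∈ N, ¬ Hits l r W {x} A := by
  constructor
  · rintro h x hx ⟨y, hy, t, ht, h1⟩
    rw [mem_singleton] at ht
    exact h ⟨y, hy, x, hx, ht ▸ h1⟩
  · rintro h ⟨y, hy, t, ht, h1⟩
    exact h t ht ⟨y, hy, t, mem_singleton_self t, h1⟩

/-- **The wired limit.** -/
theorem wired_limit (hp : ∀ e, 0 ≤ p e ∧ p e < 1) (hq : 0 < q) (hq1 : q ≤ 1)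
    {F : Finset V → Finset E} (hF : ∀ D e, e ∈ F D ↔ l e ∈ D ∨ r e ∈ D) (W₀ : Set V)
    (P N : Finset V) : ∃ μ : ℝ, Tendsto (fun D : Finset {x // x ∉ W₀} =>
      prob l r p q (F (dom W₀ D)) (dom W₀ D : Set V)ᶜ
        (Pattern l r (dom W₀ D : Set V)ᶜ P N)) atTop (𝓝 μ) := by
  unfold Pattern
  classical
  induction P using Finset.induction_on generalizing N with
  | empty =>
    obtain ⟨π, h0, -, -, h2⟩ := one_law (p := p) (q := q) hp hq hq1 hF N
    have h3 : ∀ D : Finset {x // x ∉ W₀}, prob l r p q (F (dom W₀ D)) (dom W₀ D : Set V)ᶜ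
        (fun A => (∀ x ∈ (∅ : Finset V), Hits l r (dom W₀ D : Set V)ᶜ {x} A) ∧
          ∀ x ∈ N, ¬ Hits l r (dom W₀ D : Set V)ᶜ {x} A) =
        ∑ R ∈ (dom W₀ D).powerset, π R := by
      intro D
      rw [← h2]
      refine prob_congr fun A => ?_
      rw [hits_not_iff]
      simp
    refine ⟨_, tendsto_atTop_ciSup ?_ ⟨1, ?_⟩⟩
    · intro D D' hDD'
      beta_reduce
      rw [h3, h3]
      refine sum_le_sum_of_subset_of_nonneg (powerset_mono.2 ?_) fun R _ _ => h0 R
      exact map_subset_map.2 hDD'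
    · rintro _ ⟨D, rfl⟩
      exact prob_le_one hp hq _ _ _
  | insert y P _ ih =>
    obtain ⟨μ₁, h1⟩ := ih N
    obtain ⟨μ₂, h2⟩ := ih (insert y N)
    refine ⟨μ₁ - μ₂, (h1.sub h2).congr fun D => ?_⟩
    have h3 := prob_and_add (l := l) (r := r) (p := p) (q := q) (F (dom W₀ D))
      (dom W₀ D : Set V)ᶜ
      (fun A => (∀ x ∈ P, Hits l r (dom W₀ D : Set V)ᶜ {x} A) ∧
          ∀ x ∈ N, ¬ Hits l r (dom W₀ D : Set V)ᶜ {x} A)
      (fun A => Hits l r (dom W₀ D : Set V)ᶜ {y} A)
    rw [sub_eq_iff_eq_add, ← h3]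
    congr 1
    · refine prob_congr fun A => ?_
      simp only [forall_mem_insert]
      tauto
    · refine prob_congr fun A => ?_
      simp only [forall_mem_insert]
      tauto

end final

end Vale.Agent.P167.R2.H68.Gen
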