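import Vale.Agent.P167.R2.H68.Sign

/-!
# P167: grouping of edge sets by the component of a set of vertices
-/

namespace Vale.Agent.P167.R2.H68

open Finset

section conn

variable {V ι : Type*} [DecidableEq ι] {a b : ι → V}

omit [DecidableEq ι] in
theorem con_le_iff {H : Finset ι} {s : Setoid V} : con a b H ≤ s ↔ ∀ e ∈ H, s (a e) (b e) := by
  rw [con, Finset.sup_le_iff]
  exact forall₂_congr fun e _ => edge_le_iff

omit [DecidableEq ι] in
theorem con_edge {H : Finset ι} {e : ι} (he : e ∈ H) : con a b H (a e) (b e) :=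
  con_le_iff.1 le_rfl e he

theorem con_union (H₁ H₂ : Finset ι) : con a b (H₁ ∪ H₂) = con a b H₁ ⊔ con a b H₂ := sup_union

/-- two points with the same position with respect to `R`, related by `s` if they are in `R` -/
def inside (R : Set V) (s : Setoid V) : Setoid V where
  r u v := (u ∈ R ∧ v ∈ R ∧ s u v) ∨ (u ∉ R ∧ v ∉ R)
  iseqv := by
    refine ⟨fun u => ?_, ?_, ?_⟩
    · by_cases h : u ∈ R
      · exact Or.inl ⟨h, h, s.refl u⟩
      · exact Or.inr ⟨h, h⟩
    · rintro u v (⟨h1, h2, h3⟩ | ⟨h1, h2⟩)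
      · exact Or.inl ⟨h2, h1, s.symm h3⟩
      · exact Or.inr ⟨h2, h1⟩
    · rintro u v w (⟨h1, h2, h3⟩ | ⟨h1, h2⟩) (⟨h4, h5, h6⟩ | ⟨h4, h5⟩)
      · exact Or.inl ⟨h1, h5, s.trans h3 h6⟩
      · exact absurd h2 h4
      · exact absurd h4 h2
      · exact Or.inr ⟨h1, h5⟩

theorem con_union_le {R : Set V} {H₁ H₂ : Finset ι} (h1 : ∀ e ∈ H₁, a e ∈ R ∧ b e ∈ R)
    (h2 : ∀ e ∈ H₂, a e ∉ R ∧ b e ∉ R) :
    con a b (H₁ ∪ H₂) ≤ inside R (con a b H₁) := by
  rw [con_le_iff]
  intro e he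
  rcases mem_union.1 he with h | h
  · exact Or.inl ⟨(h1 e h).1, (h1 e h).2, con_edge h⟩
  · exact Or.inr (h2 e h)

/-- the component of a point of `R` only depends on the edges in `R` -/
theorem con_union_left {R : Set V} {H₁ H₂ : Finset ι} (h1 : ∀ e ∈ H₁, a e ∈ R ∧ b e ∈ R)
    (h2 : ∀ e ∈ H₂, a e ∉ R ∧ b e ∉ R) {x y : V} (hx : x ∈ R) :
    con a b (H₁ ∪ H₂) x y ↔ con a b H₁ x y := by
  refine ⟨fun h => ?_, fun h => con_mono a b subset_union_left h⟩
  rcases con_union_le h1 h2 h with h3 | h3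
  · exact h3.2.2
  · exact absurd hx h3.1

theorem con_union_right {R : Set V} {H₁ H₂ : Finset ι} (h1 : ∀ e ∈ H₁, a e ∈ R ∧ b e ∈ R)
    (h2 : ∀ e ∈ H₂, a e ∉ R ∧ b e ∉ R) {x y : V} (hx : x ∉ R) :
    con a b (H₁ ∪ H₂) x y ↔ con a b H₂ x y := by
  rw [union_comm]
  exact con_union_left (R := Rᶜ) h2 (fun e he => ⟨not_not_intro (h1 e he).1,
    not_not_intro (h1 e he).2⟩) hx

omit [DecidableEq ι] in
theorem con_mem {R : Set V} {H : Finset ι} (h : ∀ e ∈ H, (a e ∈ R ↔ b e ∈ R)) {x y : V}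
    (hxy : con a b H x y) (hx : x ∈ R) : y ∈ R := by
  have h1 : con a b H ≤ inside R ⊤ := by
    rw [con_le_iff]
    intro e he
    by_cases h2 : a e ∈ R
    · exact Or.inl ⟨h2, (h e he).1 h2, trivial⟩
    · exact Or.inr ⟨h2, fun h3 => h2 ((h e he).2 h3)⟩
  rcases h1 hxy with h3 | h3
  · exact h3.2.1
  · exact absurd hx h3.1

end conn

section group

variable {V ι : Type*} [DecidableEq V] [Fintype ι] [DecidableEq ι] (a b : ι → V)

/-- the edges with both ends in `B` -/
def ins (B : Finset V) : Finset ι := univ.filter fun e => a e ∈ B ∧ b e ∈ B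

/-- every point of `R` is connected to a point of `T` -/
def Anch (T R : Finset V) (H : Finset ι) : Prop := ∀ y ∈ R, ∃ t ∈ T, con a b H t y

variable {a b}

omit [DecidableEq ι] in
theorem mem_ins {B : Finset V} {e : ι} : e ∈ ins a b B ↔ a e ∈ B ∧ b e ∈ B := by
  rw [ins, mem_filter]; simp

omit [DecidableEq ι] in
theorem ins_mono {B B' : Finset V} (h : B ⊆ B') : ins a b B ⊆ ins a b B' := fun e he => by
  rw [mem_ins] at he ⊢; exact ⟨h he.1, h he.2⟩

omit [DecidableEq ι] in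
theorem disjoint_ins {R R' : Finset V} (h : Disjoint R R') :
    Disjoint (ins a b R) (ins a b R') := by
  rw [disjoint_left]
  intro e he he'
  rw [mem_ins] at he he'
  exact disjoint_left.1 h he.1 he'.1

omit [Fintype ι] in
/-- the sum over the subsets of a disjoint union -/
theorem sum_powerset_union {H₁ H₂ : Finset ι} (h : Disjoint H₁ H₂) (f : Finset ι → ℝ) :
    ∑ A ∈ (H₁ ∪ H₂).powerset, f A = ∑ A₁ ∈ H₁.powerset, ∑ A₂ ∈ H₂.powerset, f (A₁ ∪ A₂) := by
  rw [← sum_product']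
  refine sum_nbij' (fun A => (A ∩ H₁, A ∩ H₂)) (fun p => p.1 ∪ p.2) ?_ ?_ ?_ ?_ ?_
  · intro A _
    rw [mem_product, mem_powerset, mem_powerset]
    exact ⟨inter_subset_right, inter_subset_right⟩
  · rintro ⟨A₁, A₂⟩ hA
    rw [mem_product, mem_powerset, mem_powerset] at hA
    rw [mem_powerset]
    exact union_subset_union hA.1 hA.2
  · intro A hA
    rw [mem_powerset] at hA
    show A ∩ H₁ ∪ A ∩ H₂ = A
    rw [← inter_union_distrib_left, inter_eq_left.2 hA]
  · rintro ⟨A₁, A₂⟩ hA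
    rw [mem_product, mem_powerset, mem_powerset] at hA
    obtain ⟨hA1, hA2⟩ := hA
    have e1 : A₂ ∩ H₁ = ∅ := disjoint_iff_inter_eq_empty.1 (h.symm.mono_left hA2)
    have e2 : A₁ ∩ H₂ = ∅ := disjoint_iff_inter_eq_empty.1 (h.mono_left hA1)
    refine Prod.ext ?_ ?_
    · show (A₁ ∪ A₂) ∩ H₁ = A₁
      rw [union_inter_distrib_right, e1, union_empty, inter_eq_left.2 hA1]
    · show (A₁ ∪ A₂) ∩ H₂ = A₂
      rw [union_inter_distrib_right, e2, empty_union, inter_eq_left.2 hA2]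
  · intro A hA
    rw [mem_powerset] at hA
    show f A = f (A ∩ H₁ ∪ A ∩ H₂)
    rw [← inter_union_distrib_left, inter_eq_left.2 hA]

open Classical in
/-- **Grouping** of the edge sets inside `B` by the component `R` of the set `T`. -/
theorem sum_group {T B : Finset V} (hT : T ⊆ B) (f : Finset ι → ℝ) :
    ∑ H ∈ (ins a b B).powerset, f H =
      ∑ R ∈ B.powerset.filter (fun R => T ⊆ R),
        ∑ H₁ ∈ (ins a b R).powerset.filter (fun H => Anch a b T R H),
          ∑ H₂ ∈ (ins a b (B \ R)).powerset, f (H₁ ∪ H₂) := by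
  set reach : Finset ι → Finset V := fun H => B.filter fun y => ∃ t ∈ T, con a b H t y with hr
  have hmem : ∀ H y, y ∈ reach H ↔ y ∈ B ∧ ∃ t ∈ T, con a b H t y := by
    intro H y; rw [hr]; simp
  have hTr : ∀ H, T ⊆ reach H := fun H t ht =>
    (hmem H t).2 ⟨hT ht, t, ht, (con a b H).refl t⟩
  rw [← sum_fiberwise_of_maps_to (g := reach)
    (t := B.powerset.filter (fun R => T ⊆ R))]
  swap
  · intro H _
    rw [mem_filter, mem_powerset]
    exact ⟨filter_subset _ _, hTr H⟩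
  refine sum_congr rfl fun R hR => ?_
  rw [mem_filter, mem_powerset] at hR
  obtain ⟨hRB, hTR⟩ := hR
  -- the two parts of an edge set
  have hpart : ∀ H, H ⊆ ins a b B → reach H = R →
      ∀ e ∈ H, (e ∈ ins a b R ∨ e ∈ ins a b (B \ R)) := by
    intro H hH hHR e he
    have h1 := mem_ins.1 (hH he)
    have h2 : con a b H (a e) (b e) := con_edge he
    have h3 : a e ∈ R ↔ b e ∈ R := by
      rw [← hHR, hmem, hmem]
      constructor
      · rintro ⟨_, t, ht, h4⟩
        exact ⟨h1.2, t, ht, (con a b H).trans h4 h2⟩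
      · rintro ⟨_, t, ht, h4⟩
        exact ⟨h1.1, t, ht, (con a b H).trans h4 ((con a b H).symm h2)⟩
    by_cases h4 : a e ∈ R
    · exact Or.inl (mem_ins.2 ⟨h4, h3.1 h4⟩)
    · exact Or.inr (mem_ins.2 ⟨mem_sdiff.2 ⟨h1.1, h4⟩,
        mem_sdiff.2 ⟨h1.2, fun h5 => h4 (h3.2 h5)⟩⟩)
  have hunion : ∀ H, H ⊆ ins a b B → reach H = R →
      H ∩ ins a b R ∪ H ∩ ins a b (B \ R) = H := by
    intro H hH hHR
    ext e
    rw [mem_union, mem_inter, mem_inter]
    constructor
    · rintro (h | h) <;> exact h.1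
    · intro he
      rcases hpart H hH hHR e he with h | h
      · exact Or.inl ⟨he, h⟩
      · exact Or.inr ⟨he, h⟩
  have hin : ∀ H₁, H₁ ⊆ ins a b R → ∀ e ∈ H₁, a e ∈ (R : Set V) ∧ b e ∈ (R : Set V) :=
    fun H₁ hH₁ e he => mem_ins.1 (hH₁ he)
  have hout : ∀ H₂, H₂ ⊆ ins a b (B \ R) → ∀ e ∈ H₂, a e ∉ (R : Set V) ∧ b e ∉ (R : Set V) := by
    intro H₂ hH₂ e he
    have h1 := mem_ins.1 (hH₂ he)
    exact ⟨(mem_sdiff.1 h1.1).2, (mem_sdiff.1 h1.2).2⟩
  rw [← sum_product']
  refine sum_nbij' (fun H => (H ∩ ins a b R, H ∩ ins a b (B \ R))) (fun p => p.1 ∪ p.2)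
    ?_ ?_ ?_ ?_ ?_
  · intro H hH
    rw [mem_filter, mem_powerset] at hH
    obtain ⟨hH, hHR⟩ := hH
    rw [mem_product, mem_filter, mem_powerset, mem_powerset]
    refine ⟨⟨inter_subset_right, fun y hy => ?_⟩, inter_subset_right⟩
    rw [← hHR, hmem] at hy
    obtain ⟨_, t, ht, h1⟩ := hy
    refine ⟨t, ht, ?_⟩
    rw [← hunion H hH hHR] at h1
    exact (con_union_left (hin _ inter_subset_right) (hout _ inter_subset_right)
      (hTR ht)).1 h1
  · rintro ⟨H₁, H₂⟩ h
    rw [mem_product, mem_filter, mem_powerset, mem_powerset] at h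
    obtain ⟨⟨h1, h2⟩, h3⟩ := h
    rw [mem_filter, mem_powerset]
    refine ⟨union_subset (h1.trans (ins_mono hRB)) (h3.trans (ins_mono sdiff_subset)), ?_⟩
    ext y
    rw [hmem]
    constructor
    · rintro ⟨_, t, ht, h4⟩
      have h5 := (con_union_left (hin _ h1) (hout _ h3) (hTR ht)).1 h4
      exact con_mem (R := (R : Set V))
        (fun e he => iff_of_true (hin _ h1 e he).1 (hin _ h1 e he).2) h5 (hTR ht)
    · intro hy
      obtain ⟨t, ht, h4⟩ := h2 y hy
      exact ⟨hRB hy, t, ht, con_mono a b subset_union_left h4⟩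
  · intro H hH
    rw [mem_filter, mem_powerset] at hH
    exact hunion H hH.1 hH.2
  · rintro ⟨H₁, H₂⟩ h
    rw [mem_product, mem_filter, mem_powerset, mem_powerset] at h
    obtain ⟨⟨h1, h2⟩, h3⟩ := h
    have hd : Disjoint (ins a b R) (ins a b (B \ R)) := disjoint_ins disjoint_sdiff
    have e1 : H₂ ∩ ins a b R = ∅ := disjoint_iff_inter_eq_empty.1 (hd.symm.mono_left h3)
    have e2 : H₁ ∩ ins a b (B \ R) = ∅ := disjoint_iff_inter_eq_empty.1 (hd.mono_left h1)
    refine Prod.ext ?_ ?_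
    · show (H₁ ∪ H₂) ∩ ins a b R = H₁
      rw [union_inter_distrib_right, e1, union_empty, inter_eq_left.2 h1]
    · show (H₁ ∪ H₂) ∩ ins a b (B \ R) = H₂
      rw [union_inter_distrib_right, e2, empty_union, inter_eq_left.2 h3]
  · intro H hH
    rw [mem_filter, mem_powerset] at hH
    show f H = f (H ∩ ins a b R ∪ H ∩ ins a b (B \ R))
    rw [hunion H hH.1 hH.2]

end group

section classes

variable {V : Type*} [Fintype V] [DecidableEq V]

open Classical in
/-- the class of a point -/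
noncomputable def cls (s : Setoid V) (x : V) : Finset V := univ.filter fun y => s x y

omit [DecidableEq V] in
theorem mem_cls {s : Setoid V} {x y : V} : y ∈ cls s x ↔ s x y := by
  classical
  simp [cls]

omit [DecidableEq V] in
theorem self_mem_cls (s : Setoid V) (x : V) : x ∈ cls s x := mem_cls.2 (s.refl x)

omit [DecidableEq V] in
theorem cls_eq_iff {s : Setoid V} {x y : V} : cls s x = cls s y ↔ s x y := by
  constructor
  · intro h
    exact mem_cls.1 (h ▸ self_mem_cls s y)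
  · intro h
    ext z
    rw [mem_cls, mem_cls]
    exact ⟨fun h1 => s.trans (s.symm h) h1, fun h1 => s.trans h h1⟩

/-- the product of `φ` over the classes of the points of `B` -/
noncomputable def prodCls (φ : Finset V → ℝ) (s : Setoid V) (B : Finset V) : ℝ :=
  ∏ C ∈ B.image (cls s), φ C

theorem prodCls_congr {φ : Finset V → ℝ} {s s' : Setoid V} {B : Finset V}
    (h : ∀ x ∈ B, cls s x = cls s' x) : prodCls φ s B = prodCls φ s' B := by
  rw [prodCls, prodCls, image_congr h]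

theorem prodCls_union {φ : Finset V → ℝ} {s : Setoid V} {R R' : Finset V}
    (h : ∀ x ∈ R, ∀ y ∈ R', ¬ s x y) :
    prodCls φ s (R ∪ R') = prodCls φ s R * prodCls φ s R' := by
  rw [prodCls, image_union, prod_union, prodCls, prodCls]
  rw [disjoint_left]
  intro C h1 h2
  obtain ⟨x, hx, rfl⟩ := mem_image.1 h1
  obtain ⟨y, hy, h3⟩ := mem_image.1 h2
  exact h x hx y hy (s.symm (cls_eq_iff.1 h3))

variable {ι : Type*} [Fintype ι] [DecidableEq ι] {a b : ι → V}

/-- product over the classes for a disjoint union of edge sets -/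
theorem prodCls_con_union (φ : Finset V → ℝ) {R R' : Finset V} (hRR' : Disjoint R R')
    {A₁ A₂ : Finset ι} (h1 : A₁ ⊆ ins a b R) (h2 : A₂ ⊆ ins a b R') :
    prodCls φ (con a b (A₁ ∪ A₂)) (R ∪ R') =
      prodCls φ (con a b A₁) R * prodCls φ (con a b A₂) R' := by
  have hin : ∀ e ∈ A₁, a e ∈ (R : Set V) ∧ b e ∈ (R : Set V) := fun e he => mem_ins.1 (h1 he)
  have hout : ∀ e ∈ A₂, a e ∉ (R : Set V) ∧ b e ∉ (R : Set V) := by
    intro e he
    have h3 := mem_ins.1 (h2 he)
    exact ⟨fun h4 => disjoint_left.1 hRR' h4 h3.1, fun h4 => disjoint_left.1 hRR' h4 h3.2⟩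
  rw [prodCls_union]
  · congr 1
    · refine prodCls_congr fun x hx => ?_
      ext y
      rw [mem_cls, mem_cls]
      exact con_union_left hin hout hx
    · refine prodCls_congr fun x hx => ?_
      ext y
      rw [mem_cls, mem_cls]
      exact con_union_right hin hout fun h => disjoint_left.1 hRR' h hx
  · intro x hx y hy hxy
    have h3 := (con_union_left hin hout hx).1 hxy
    have h4 : y ∈ (R : Set V) :=
      con_mem (fun e he => iff_of_true (hin e he).1 (hin e he).2) h3 hx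
    exact disjoint_left.1 hRR' h4 hy

end classes

end Vale.Agent.P167.R2.H68
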