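import Vale.Agent.P167.R2.H68.Cor
import Vale.Agent.P167.R2.H68.Defs

/-!
# P167: infinite graphs, wired outside of a finite set `D`
-/

namespace Vale.Agent.P167.R2.H68.Gen

open Finset
open Vale.Agent.P167.R2.H68 (con miss meet missSet meetSet mem_missSet mem_meetSet con_le_iff
  con_edge TMon mob sum_mob coeff_unique fk val)

section comp

variable {V E : Type*} {l r : E → V}

theorem joined_le_iff {W : Set V} {A : Finset E} {s : Setoid V} :
    joined l r W A ≤ s ↔ (∀ x ∈ W, ∀ y ∈ W, s x y) ∧ ∀ e ∈ A, s (l e) (r e) := by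
  constructor
  · intro h
    exact ⟨fun x hx y hy => h (Relation.EqvGen.rel _ _ (Or.inl ⟨hx, hy⟩)),
      fun e he => h (Relation.EqvGen.rel _ _ (Or.inr ⟨e, he, rfl, rfl⟩))⟩
  · rintro ⟨h1, h2⟩ x y hxy
    induction hxy with
    | rel x y h =>
      rcases h with ⟨hx, hy⟩ | ⟨e, he, rfl, rfl⟩
      · exact h1 x hx y hy
      · exact h2 e he
    | refl x => exact s.refl x
    | symm x y _ ih => exact s.symm ih
    | trans x y z _ _ ih1 ih2 => exact s.trans ih1 ih2

theorem joined_wired {W : Set V} {A : Finset E} {x y : V} (hx : x ∈ W) (hy : y ∈ W) :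
    joined l r W A x y := (joined_le_iff.1 le_rfl).1 x hx y hy

theorem con_le_joined (W : Set V) (A : Finset E) : con l r A ≤ joined l r W A :=
  con_le_iff.2 (joined_le_iff.1 le_rfl).2

/-- explicit form of the relation -/
theorem joined_iff {W : Set V} {A : Finset E} {x y : V} :
    joined l r W A x y ↔
      con l r A x y ∨ ((∃ u ∈ W, con l r A x u) ∧ ∃ v ∈ W, con l r A v y) := by
  set c := con l r A with hc
  let s : Setoid V :=
    { r := fun x y => c x y ∨ ((∃ u ∈ W, c x u) ∧ ∃ v ∈ W, c v y)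
      iseqv := by
        refine ⟨fun x => Or.inl (c.refl x), ?_, ?_⟩
        · rintro x y (h | ⟨⟨u, hu, h1⟩, v, hv, h2⟩)
          · exact Or.inl (c.symm h)
          · exact Or.inr ⟨⟨v, hv, c.symm h2⟩, u, hu, c.symm h1⟩
        · rintro x y z (h | ⟨⟨u, hu, h1⟩, v, hv, h2⟩) (h' | ⟨⟨u', hu', h1'⟩, v', hv', h2'⟩)
          · exact Or.inl (c.trans h h')
          · exact Or.inr ⟨⟨u', hu', c.trans h h1'⟩, v', hv', h2'⟩
          · exact Or.inr ⟨⟨u, hu, h1⟩, v, hv, c.trans h2 h'⟩
          · exact Or.inr ⟨⟨u, hu, h1⟩, v', hv', h2'⟩ }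
  constructor
  · intro h
    have h1 : joined l r W A ≤ s := by
      rw [joined_le_iff]
      refine ⟨fun x hx y hy => Or.inr ⟨⟨x, hx, c.refl x⟩, y, hy, c.refl y⟩, fun e he => ?_⟩
      exact Or.inl (con_edge he)
    exact h1 h
  · rintro (h | ⟨⟨u, hu, h1⟩, v, hv, h2⟩)
    · exact con_le_joined W A h
    · exact (joined l r W A).trans (con_le_joined W A h1)
        ((joined l r W A).trans (joined_wired hu hv) (con_le_joined W A h2))

theorem hits_iff {W : Set V} {T : Finset V} {A : Finset E} :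
    Hits l r W T A ↔ ∃ t ∈ T, ∃ y, y ∈ W ∧ con l r A t y := by
  constructor
  · rintro ⟨x, hx, t, ht, h⟩
    rcases joined_iff.1 h with h1 | ⟨_, v, hv, h1⟩
    · exact ⟨t, ht, x, hx, (con l r A).symm h1⟩
    · exact ⟨t, ht, v, hv, (con l r A).symm h1⟩
  · rintro ⟨t, ht, y, hy, h⟩
    exact ⟨y, hy, t, ht, con_le_joined W A ((con l r A).symm h)⟩

/-- the classes that miss `W` are the same -/
theorem miss_joined (W : Set V) (A : Finset E) :
    miss W (joined l r W A) = miss W (con l r A) := by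
  let f : Quotient (con l r A) → Quotient (joined l r W A) :=
    Quotient.lift (fun u => Quotient.mk (joined l r W A) u)
      fun _ _ h => Quotient.sound (con_le_joined W A h)
  have h1 : missSet W (joined l r W A) = f '' missSet W (con l r A) := by
    ext c
    induction c using Quotient.ind with | _ x => ?_
    constructor
    · intro h
      rw [mem_missSet] at h
      exact ⟨Quotient.mk _ x, mem_missSet.2 fun k hk hkx => h k hk (con_le_joined W A hkx), rfl⟩
    · rintro ⟨c', hc', h⟩
      induction c' using Quotient.ind with | _ u => ?_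
      rw [mem_missSet] at hc' ⊢
      have h2 : joined l r W A u x := Quotient.exact h
      intro k hk hkx
      have h3 : joined l r W A k u := (joined l r W A).trans hkx ((joined l r W A).symm h2)
      rcases joined_iff.1 h3 with h4 | ⟨_, v, hv, h4⟩
      · exact hc' k hk h4
      · exact hc' v hv h4
  have h2 : Set.InjOn f (missSet W (con l r A)) := by
    intro c hc c' hc' h
    induction c using Quotient.ind with | _ u => ?_
    induction c' using Quotient.ind with | _ u' => ?_
    rw [mem_missSet] at hc hc'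
    have h3 : joined l r W A u u' := Quotient.exact h
    rcases joined_iff.1 h3 with h4 | ⟨_, v, hv, h4⟩
    · exact Quotient.sound h4
    · exact absurd h4 (hc' v hv)
  rw [miss, miss, h1, h2.ncard_image]

theorem finite_quotient (D : Finset V) (A : Finset E) :
    Finite (Quotient (joined l r (D : Set V)ᶜ A)) := by
  by_cases h : ∃ x₀, x₀ ∉ D
  · obtain ⟨x₀, hx₀⟩ := h
    refine Finite.of_surjective (α := Option D)
      (fun o => Quotient.mk _ (o.elim x₀ fun d => (d : V))) ?_
    rintro ⟨x⟩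
    by_cases hx : x ∈ D
    · exact ⟨some ⟨x, hx⟩, rfl⟩
    · exact ⟨none, Quotient.sound (joined_wired (by simpa using hx₀) (by simpa using hx))⟩
  · push Not at h
    have : Finite V := Finite.of_surjective (α := D) (fun d => (d : V)) fun x => ⟨⟨x, h x⟩, rfl⟩
    infer_instance

open Classical in
theorem comps_eq (D : Finset V) (A : Finset E) :
    comps l r (D : Set V)ᶜ A = miss (D : Set V)ᶜ (con l r A) +
      if ((D : Set V)ᶜ).Nonempty then 1 else 0 := by
  have hfin := finite_quotient (l := l) (r := r) D A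
  have h1 : meetSet (D : Set V)ᶜ (joined l r (D : Set V)ᶜ A) =
      (missSet (D : Set V)ᶜ (joined l r (D : Set V)ᶜ A))ᶜ := by
    ext c
    simp [meetSet, missSet]
  have h2 : Nat.card (Quotient (joined l r (D : Set V)ᶜ A)) =
      miss (D : Set V)ᶜ (joined l r (D : Set V)ᶜ A) +
        meet (D : Set V)ᶜ (joined l r (D : Set V)ᶜ A) := by
    rw [miss, meet, h1, Set.ncard_add_ncard_compl]
  rw [comps, h2, miss_joined]
  congr 1
  split_ifs with h
  · obtain ⟨x, hx⟩ := h
    rw [meet, Set.ncard_eq_one]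
    refine ⟨Quotient.mk _ x, ?_⟩
    ext c
    constructor
    · rintro ⟨y, hy, rfl⟩
      exact Quotient.sound (joined_wired hy hx)
    · rintro rfl
      exact ⟨x, hx, rfl⟩
  · rw [meet, Set.ncard_eq_zero (Set.toFinite _), Set.eq_empty_iff_forall_notMem]
    rintro c ⟨y, hy, _⟩
    exact h ⟨y, hy⟩

/-- weight of a configuration, as `val` but without finiteness of `V` -/
noncomputable def valI (q : ℝ) (T D : Finset V) (s : Setoid V) : ℝ :=
  open Classical in
  if ∃ t ∈ T, ∃ y, y ∉ D ∧ s t y then 0 else q ^ miss (D : Set V)ᶜ s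

/-- the random-cluster sum -/
noncomputable def fkI (l r : E → V) (w : E → ℝ) (q : ℝ) (F : Finset E) (T D : Finset V) : ℝ :=
  ∑ A ∈ F.powerset, (∏ e ∈ A, w e) * valI q T D (con l r A)

theorem valI_empty (q : ℝ) (D : Finset V) (s : Setoid V) :
    valI q ∅ D s = q ^ miss (D : Set V)ᶜ s := by
  rw [valI, if_neg]
  rintro ⟨t, ht, _⟩
  exact absurd ht (notMem_empty t)

open Classical in
theorem weight_eq {p : E → ℝ} (hp : ∀ e, p e < 1) (q : ℝ) (F : Finset E) (D : Finset V)
    {A : Finset E} (hA : A ⊆ F) :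
    weight l r p q F (D : Set V)ᶜ A =
      ((∏ e ∈ F, (1 - p e)) * q ^ (if ((D : Set V)ᶜ).Nonempty then 1 else 0)) *
      ((∏ e ∈ A, odds p e) * valI q ∅ D (con l r A)) := by
  rw [weight, comps_eq, pow_add, valI_empty, ← prod_sdiff hA]
  have h1 : ∏ e ∈ A, p e = (∏ e ∈ A, (1 - p e)) * ∏ e ∈ A, odds p e := by
    rw [← prod_mul_distrib]
    refine prod_congr rfl fun e _ => ?_
    have : 1 - p e ≠ 0 := by linarith [hp e]
    rw [odds, mul_div_cancel₀ _ this]
  rw [h1]
  ring

open Classical in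
/-- the probability of an event in terms of the weights `valI` -/
theorem prob_eq {p : E → ℝ} (hp : ∀ e, p e < 1) {q : ℝ} (hq : 0 < q) (F : Finset E)
    (D : Finset V) (ev : Finset E → Prop) :
    prob l r p q F (D : Set V)ᶜ ev =
      (∑ A ∈ F.powerset.filter ev, (∏ e ∈ A, odds p e) * valI q ∅ D (con l r A)) /
        fkI l r (odds p) q F ∅ D := by
  set c := (∏ e ∈ F, (1 - p e)) * q ^ (if ((D : Set V)ᶜ).Nonempty then 1 else 0) with hc
  have hc0 : c ≠ 0 := by
    refine mul_ne_zero (prod_ne_zero_iff.2 fun e _ => ?_) (pow_ne_zero _ hq.ne')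
    linarith [hp e]
  have h1 : ∑ A ∈ F.powerset.filter ev, weight l r p q F (D : Set V)ᶜ A =
      c * ∑ A ∈ F.powerset.filter ev, (∏ e ∈ A, odds p e) * valI q ∅ D (con l r A) := by
    rw [mul_sum]
    refine sum_congr rfl fun A hA => ?_
    rw [weight_eq hp q F D (mem_powerset.1 (mem_filter.1 hA).1)]
  have h2 : ∑ A ∈ F.powerset, weight l r p q F (D : Set V)ᶜ A =
      c * fkI l r (odds p) q F ∅ D := by
    rw [fkI, mul_sum]
    refine sum_congr rfl fun A hA => ?_
    rw [weight_eq hp q F D (mem_powerset.1 hA)]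
  rw [prob, h1, h2, mul_div_mul_left _ _ hc0]

open Classical in
theorem prob_miss_eq {p : E → ℝ} (hp : ∀ e, p e < 1) {q : ℝ} (hq : 0 < q) (F : Finset E)
    (D T : Finset V) :
    prob l r p q F (D : Set V)ᶜ (fun A => ¬ Hits l r (D : Set V)ᶜ T A) =
      fkI l r (odds p) q F T D / fkI l r (odds p) q F ∅ D := by
  rw [prob_eq hp hq, fkI, sum_filter]
  congr 1
  refine sum_congr rfl fun A _ => ?_
  rw [valI_empty, valI]
  have h1 : Hits l r (D : Set V)ᶜ T A ↔ ∃ t ∈ T, ∃ y, y ∉ D ∧ con l r A t y := by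
    rw [hits_iff]; simp
  by_cases h : Hits l r (D : Set V)ᶜ T A
  · rw [if_neg (not_not_intro h), if_pos (h1.1 h), mul_zero]
  · rw [if_pos h, if_neg fun h' => h (h1.2 h')]

end comp

end Vale.Agent.P167.R2.H68.Gen
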