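import Vale.Agent.P167.R2.H68.Tr

/-!
# P167: one random set for all finite domains of an infinite graph
-/

namespace Vale.Agent.P167.R2.H68.Gen

open Finset
open Vale.Agent.P167.R2.H68 (con miss TMon mob sum_mob coeff_unique mob_eq fk fk_pos
  tmon_fk sum_powerset_union)

section extra

variable {V E : Type*} {l r : E → V}

theorem joined_union (W : Set V) [DecidableEq E] (A₁ A₂ : Finset E)
    (h : ∀ e ∈ A₂, l e ∈ W ∧ r e ∈ W) : joined l r W (A₁ ∪ A₂) = joined l r W A₁ := by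
  refine le_antisymm ?_ ?_
  · rw [joined_le_iff]
    refine ⟨fun x hx y hy => joined_wired hx hy, fun e he => ?_⟩
    rcases mem_union.1 he with h1 | h1
    · exact (joined_le_iff.1 (le_refl (joined l r W A₁))).2 e h1
    · exact joined_wired (h e h1).1 (h e h1).2
  · rw [joined_le_iff]
    exact ⟨fun x hx y hy => joined_wired hx hy,
      fun e he => (joined_le_iff.1 (le_refl (joined l r W (A₁ ∪ A₂)))).2 e
        (mem_union_left _ he)⟩

/-- edges with both ends outside `D` do not matter -/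
theorem valI_union [DecidableEq E] (q : ℝ) (T D : Finset V) (A₁ A₂ : Finset E)
    (h : ∀ e ∈ A₂, l e ∉ D ∧ r e ∉ D) :
    valI q T D (con l r (A₁ ∪ A₂)) = valI q T D (con l r A₁) := by
  have h1 := joined_union (l := l) (r := r) (D : Set V)ᶜ A₁ A₂ h
  have h2 : miss (D : Set V)ᶜ (con l r (A₁ ∪ A₂)) = miss (D : Set V)ᶜ (con l r A₁) := by
    rw [← miss_joined, ← miss_joined, h1]
  have h3 : ∀ A : Finset E, (∃ t ∈ T, ∃ y, y ∉ D ∧ con l r A t y) ↔
      Hits l r (D : Set V)ᶜ T A := by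
    intro A
    rw [hits_iff]
    rfl
  have h4 : Hits l r (D : Set V)ᶜ T (A₁ ∪ A₂) ↔ Hits l r (D : Set V)ᶜ T A₁ := by
    rw [Hits, Hits, h1]
  rw [valI, valI, h2]
  by_cases h5 : ∃ t ∈ T, ∃ y, y ∉ D ∧ con l r A₁ t y
  · rw [if_pos h5, if_pos ((h3 _).2 (h4.2 ((h3 _).1 h5)))]
  · rw [if_neg h5, if_neg fun h' => h5 ((h3 _).2 (h4.1 ((h3 _).1 h')))]

theorem fkI_extra (w : E → ℝ) (q : ℝ) {F F₁ : Finset E} (hFF : F ⊆ F₁) (T D : Finset V)
    (h : ∀ e ∈ F₁, l e ∈ D ∨ r e ∈ D → e ∈ F) :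
    ∃ c : Finset E → ℝ, c = (fun G => ∏ e ∈ G, (1 + w e)) ∧ ∃ G : Finset E, (∀ e ∈ G, e ∈ F₁) ∧
      fkI l r w q F₁ T D = c G * fkI l r w q F T D ∧
      fkI l r w q F₁ ∅ D = c G * fkI l r w q F ∅ D := by
  classical
  have key : ∀ T : Finset V, fkI l r w q F₁ T D =
      (∏ e ∈ F₁ \ F, (1 + w e)) * fkI l r w q F T D := by
    intro T
    have h1 : F ∪ F₁ \ F = F₁ := union_sdiff_of_subset hFF
    rw [fkI, ← h1, sum_powerset_union disjoint_sdiff, h1, fkI, mul_sum]
    refine sum_congr rfl fun A₁ hA₁ => ?_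
    rw [mem_powerset] at hA₁
    have h2 : ∀ A₂ ∈ (F₁ \ F).powerset, (∏ e ∈ A₁ ∪ A₂, w e) * valI q T D (con l r (A₁ ∪ A₂)) =
        (∏ e ∈ A₂, w e) * ((∏ e ∈ A₁, w e) * valI q T D (con l r A₁)) := by
      intro A₂ hA₂
      rw [mem_powerset] at hA₂
      rw [prod_union (disjoint_sdiff.mono hA₁ hA₂), valI_union]
      · ring
      · intro e he
        have h3 := mem_sdiff.1 (hA₂ he)
        by_contra hcon
        rw [not_and_or, not_not, not_not] at hcon
        exact h3.2 (h e h3.1 hcon)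
    rw [sum_congr rfl h2, ← sum_mul, ← prod_one_add]
  exact ⟨_, rfl, F₁ \ F, fun e he => (mem_sdiff.1 he).1, key T, key ∅⟩

theorem ratio_extra {w : E → ℝ} (hw : ∀ e, 0 ≤ w e) (q : ℝ) {F F₁ : Finset E} (hFF : F ⊆ F₁)
    (T D : Finset V) (h : ∀ e ∈ F₁, l e ∈ D ∨ r e ∈ D → e ∈ F) :
    fkI l r w q F₁ T D / fkI l r w q F₁ ∅ D = fkI l r w q F T D / fkI l r w q F ∅ D := by
  obtain ⟨c, hc, G, _, h1, h2⟩ := fkI_extra w q hFF T D h
  rw [h1, h2, mul_div_mul_left]
  rw [hc]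
  exact (prod_pos fun e _ => by linarith [hw e]).ne'

variable [DecidableEq V]

theorem sum_subtype_powerset {U D : Finset V} (hD : D ⊆ U)
    (g : Finset {x // x ∈ U} → ℝ) :
    ∑ R ∈ D.powerset, g (R.subtype (· ∈ U)) =
      ∑ R ∈ (D.subtype (· ∈ U)).powerset, g R := by
  refine sum_nbij' (fun R => R.subtype (· ∈ U))
    (fun R => R.map (Function.Embedding.subtype _)) ?_ ?_ ?_ ?_ ?_
  · intro R hR
    rw [mem_powerset] at hR ⊢
    intro x hx
    rw [mem_subtype] at hx ⊢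
    exact hR hx
  · intro R hR
    rw [mem_powerset] at hR ⊢
    intro x hx
    rw [mem_map] at hx
    obtain ⟨y, hy, rfl⟩ := hx
    exact mem_subtype.1 (hR hy)
  · intro R hR
    rw [mem_powerset] at hR
    ext x
    rw [mem_map]
    constructor
    · rintro ⟨y, hy, rfl⟩
      exact mem_subtype.1 hy
    · intro hx
      exact ⟨⟨x, hD (hR hx)⟩, mem_subtype.2 hx, rfl⟩
  · intro R _
    ext x
    rw [mem_subtype, mem_map]
    constructor
    · rintro ⟨y, hy, hyx⟩
      have : y = x := Subtype.ext hyx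
      rwa [← this]
    · intro hx
      exact ⟨x, hx, rfl⟩
  · intro R _
    rfl

/-- total monotonicity on the subsets of a finite set of vertices -/
theorem tmon_ratio {w : E → ℝ} (hw : ∀ e, 0 ≤ w e) {q : ℝ} (hq : 0 < q) (hq1 : q ≤ 1)
    {F : Finset V → Finset E} (hF : ∀ D e, l e ∈ D ∨ r e ∈ D ↔ e ∈ F D) (T D₀ : Finset V) :
    TMon D₀ (fun D => fkI l r w q (F D) T D / fkI l r w q (F D) ∅ D) := by
  classical
  set U : Finset V := D₀ ∪ T ∪ ((F D₀).image l ∪ (F D₀).image r) with hU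
  have hD₀ : D₀ ⊆ U := fun x hx => mem_union_left _ (mem_union_left _ hx)
  have hT : T ⊆ U := fun x hx => mem_union_left _ (mem_union_right _ hx)
  have hFU : ∀ e ∈ F D₀, l e ∈ U ∧ r e ∈ U := fun e he =>
    ⟨mem_union_right _ (mem_union_left _ (mem_image_of_mem _ he)),
      mem_union_right _ (mem_union_right _ (mem_image_of_mem _ he))⟩
  obtain ⟨a, ha, h1⟩ := tmon_fk (a := lf hFU) (b := rf hFU)
    (w := fun e : {e // e ∈ F D₀} => w e.1) hq hq1 (fun e => hw e.1) (T.subtype (· ∈ U))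
  refine ⟨fun R => a (R.subtype (· ∈ U)), fun R => ha _, fun D hD => ?_⟩
  beta_reduce
  rw [sum_subtype_powerset (hD.trans hD₀) a]
  have h2 := h1 (D.subtype (· ∈ U)) (subset_univ _)
  beta_reduce at h2
  rw [← h2]
  have hmono : F D ⊆ F D₀ := by
    intro e he
    rw [← hF] at he ⊢
    exact he.imp (fun h => hD h) (fun h => hD h)
  rw [← ratio_extra hw q hmono T D (fun e _ h => (hF D e).1 h),
    fkI_eq hFU (hD.trans hD₀) hT w q, fkI_eq hFU (hD.trans hD₀) (empty_subset U) w q]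
  rw [show (∅ : Finset V).subtype (· ∈ U) = ∅ from by ext x; simp]

omit [DecidableEq V] in
theorem valI_eq_zero (q : ℝ) {T D : Finset V} (h : ¬ T ⊆ D) (s : Setoid V) :
    valI q T D s = 0 := by
  rw [not_subset] at h
  obtain ⟨t, ht, htD⟩ := h
  rw [valI, if_pos]
  exact ⟨t, ht, t, htD, s.refl t⟩

/-- **One random set for all finite domains.** -/
theorem exists_set {w : E → ℝ} (hw : ∀ e, 0 ≤ w e) {q : ℝ} (hq : 0 < q) (hq1 : q ≤ 1)
    {F : Finset V → Finset E} (hF : ∀ D e, l e ∈ D ∨ r e ∈ D ↔ e ∈ F D) (T : Finset V) :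
    ∃ π : Finset V → ℝ, (∀ R, 0 ≤ π R) ∧ (∀ R, π R ≠ 0 → T ⊆ R) ∧ ∀ D,
      fkI l r w q (F D) T D / fkI l r w q (F D) ∅ D = ∑ R ∈ D.powerset, π R := by
  set f : Finset V → ℝ := fun D => fkI l r w q (F D) T D / fkI l r w q (F D) ∅ D with hf
  refine ⟨mob f, fun R => ?_, fun R => ?_, fun D => (sum_mob f D).symm⟩
  · obtain ⟨a, ha, h1⟩ := tmon_ratio hw hq hq1 hF T R
    have h2 := coeff_unique (V₀ := R) (a := mob f) (b := a)
      (fun D hD => by rw [sum_mob]; exact h1 D hD) R subset_rfl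
    rw [h2]
    exact ha R
  · intro hR
    by_contra hTR
    apply hR
    clear hR
    induction R using Finset.strongInduction with
    | H R ih =>
      rw [mob_eq]
      have h1 : f R = 0 := by
        rw [hf]
        beta_reduce
        have : fkI l r w q (F R) T R = 0 := by
          rw [fkI]
          refine sum_eq_zero fun A _ => ?_
          rw [valI_eq_zero q hTR, mul_zero]
        rw [this, zero_div]
      rw [h1, sum_eq_zero, sub_zero]
      intro S hS
      exact ih S (mem_ssubsets.1 hS) fun h => hTR (h.trans (mem_ssubsets.1 hS).subset)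

omit [DecidableEq V] in
theorem valI_nonneg {q : ℝ} (hq : 0 ≤ q) (T D : Finset V) (s : Setoid V) :
    0 ≤ valI q T D s := by
  rw [valI]; split_ifs
  · exact le_rfl
  · positivity

omit [DecidableEq V] in
theorem valI_le {q : ℝ} (hq : 0 ≤ q) (T D : Finset V) (s : Setoid V) :
    valI q T D s ≤ valI q ∅ D s := by
  rw [valI_empty, valI]; split_ifs
  · positivity
  · exact le_rfl

theorem fkI_le {w : E → ℝ} (hw : ∀ e, 0 ≤ w e) {q : ℝ} (hq : 0 ≤ q) (F : Finset E)
    (T D : Finset V) : fkI l r w q F T D ≤ fkI l r w q F ∅ D :=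
  sum_le_sum fun _ _ => mul_le_mul_of_nonneg_left (valI_le hq T D _)
    (prod_nonneg fun e _ => hw e)

theorem fkI_pos {w : E → ℝ} (hw : ∀ e, 0 ≤ w e) {q : ℝ} (hq : 0 < q) (F : Finset E)
    (D : Finset V) : 0 < fkI l r w q F ∅ D := by
  refine sum_pos' (fun A _ => mul_nonneg (prod_nonneg fun e _ => hw e)
    (valI_nonneg hq.le _ _ _)) ⟨∅, empty_mem_powerset F, ?_⟩
  rw [prod_empty, one_mul, valI_empty]
  positivity

end extra

end Vale.Agent.P167.R2.H68.Gen
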