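import Vale.Agent.P167.R2.H68.Core

/-!
# P167: the random-cluster measure of a finite graph with a wired set of vertices
-/

namespace Vale.Agent.P167.R2.H68

open Finset

section defs

variable {V E : Type*} (l r : E → V)

/-- `x` and `y` are in the same component: the edges `e ∈ A` (with ends `l e`, `r e`) are open and
the vertices of `W` are identified -/
def joined (W : Finset V) (A : Finset E) : Setoid V :=
  Relation.EqvGen.setoid fun x y => (x ∈ W ∧ y ∈ W) ∨ ∃ e ∈ A, x = l e ∧ y = r e

/-- the number of components after the identification of the vertices of `W` -/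
noncomputable def comps (W : Finset V) (A : Finset E) : ℕ := Nat.card (Quotient (joined l r W A))

variable [Fintype E] [DecidableEq E]

/-- the weight of the set `A` of open edges, parameters `p e`, cluster weight `q`, `W` wired -/
noncomputable def weight (p : E → ℝ) (q : ℝ) (W : Finset V) (A : Finset E) : ℝ :=
  (∏ e ∈ A, p e) * (∏ e ∈ Aᶜ, (1 - p e)) * q ^ comps l r W A

open Classical in
/-- the probability of an event for the random-cluster measure -/
noncomputable def prob (p : E → ℝ) (q : ℝ) (W : Finset V) (ev : Finset E → Prop) : ℝ :=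
  (∑ A, if ev A then weight l r p q W A else 0) / ∑ A, weight l r p q W A

/-- the component of the wired set `W` meets `T` -/
def Hits (W T : Finset V) (A : Finset E) : Prop := ∃ x ∈ W, ∃ t ∈ T, joined l r W A x t

end defs

section comp

variable {V E : Type*} {l r : E → V}

theorem joined_le_iff {W : Finset V} {A : Finset E} {s : Setoid V} :
    joined l r W A ≤ s ↔ (∀ x ∈ W, ∀ y ∈ W, s x y) ∧ ∀ e ∈ A, s (l e) (r e) := by
  constructor
  · intro h
    exact ⟨fun x hx y hy => h (Relation.EqvGen.rel _ _ (Or.inl ⟨hx, hy⟩)),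
      fun e he => h (Relation.EqvGen.rel _ _ (Or.inr ⟨e, he, rfl, rfl⟩))⟩
  · rintro ⟨h1, h2⟩ x y hxy
    induction hxy with
    | rel x y h =>
      rcases h with ⟨hx, hy⟩ | ⟨e, he, rfl, rfl⟩
      · exact h1 x hx y hy
      · exact h2 e he
    | refl x => exact s.refl x
    | symm x y _ ih => exact s.symm ih
    | trans x y z _ _ ih1 ih2 => exact s.trans ih1 ih2

theorem joined_wired {W : Finset V} {A : Finset E} {x y : V} (hx : x ∈ W) (hy : y ∈ W) :
    joined l r W A x y := (joined_le_iff.1 le_rfl).1 x hx y hy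

theorem con_le_joined (W : Finset V) (A : Finset E) : con l r A ≤ joined l r W A :=
  con_le_iff.2 (joined_le_iff.1 le_rfl).2

/-- explicit form of the relation -/
theorem joined_iff {W : Finset V} {A : Finset E} {x y : V} :
    joined l r W A x y ↔
      con l r A x y ∨ ((∃ u ∈ W, con l r A x u) ∧ ∃ v ∈ W, con l r A v y) := by
  set c := con l r A with hc
  let s : Setoid V :=
    { r := fun x y => c x y ∨ ((∃ u ∈ W, c x u) ∧ ∃ v ∈ W, c v y)
      iseqv := by
        refine ⟨fun x => Or.inl (c.refl x), ?_, ?_⟩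
        · rintro x y (h | ⟨⟨u, hu, h1⟩, v, hv, h2⟩)
          · exact Or.inl (c.symm h)
          · exact Or.inr ⟨⟨v, hv, c.symm h2⟩, u, hu, c.symm h1⟩
        · rintro x y z (h | ⟨⟨u, hu, h1⟩, v, hv, h2⟩) (h' | ⟨⟨u', hu', h1'⟩, v', hv', h2'⟩)
          · exact Or.inl (c.trans h h')
          · exact Or.inr ⟨⟨u', hu', c.trans h h1'⟩, v', hv', h2'⟩
          · exact Or.inr ⟨⟨u, hu, h1⟩, v, hv, c.trans h2 h'⟩
          · exact Or.inr ⟨⟨u, hu, h1⟩, v', hv', h2'⟩ }
  constructor
  · intro h
    have h1 : joined l r W A ≤ s := by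
      rw [joined_le_iff]
      refine ⟨fun x hx y hy => Or.inr ⟨⟨x, hx, c.refl x⟩, y, hy, c.refl y⟩, fun e he => ?_⟩
      exact Or.inl (con_edge he)
    exact h1 h
  · rintro (h | ⟨⟨u, hu, h1⟩, v, hv, h2⟩)
    · exact con_le_joined W A h
    · exact (joined l r W A).trans (con_le_joined W A h1)
        ((joined l r W A).trans (joined_wired hu hv) (con_le_joined W A h2))

theorem card_quotient_eq [Finite V] (s : Setoid V) (K : Set V) :
    Nat.card (Quotient s) = miss K s + meet K s := by
  have h1 : meetSet K s = (missSet K s)ᶜ := by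
    ext c
    simp [meetSet, missSet]
  rw [miss, meet, h1, Set.ncard_add_ncard_compl]

theorem hits_iff {W T : Finset V} {A : Finset E} :
    Hits l r W T A ↔ ∃ t ∈ T, ∃ y ∈ W, con l r A t y := by
  constructor
  · rintro ⟨x, hx, t, ht, h⟩
    rcases joined_iff.1 h with h1 | ⟨_, v, hv, h1⟩
    · exact ⟨t, ht, x, hx, (con l r A).symm h1⟩
    · exact ⟨t, ht, v, hv, (con l r A).symm h1⟩
  · rintro ⟨t, ht, y, hy, h⟩
    exact ⟨y, hy, t, ht, con_le_joined W A ((con l r A).symm h)⟩

variable [Fintype V] [DecidableEq V]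

theorem miss_joined (W : Finset V) (A : Finset E) :
    miss (W : Set V) (joined l r W A) = miss (W : Set V) (con l r A) := by
  classical
  set F : Finset (Finset V) := ((univ : Finset V).image (cls (con l r A))).filter
    (fun C => Disjoint C W) with hF
  have h1 : ∀ x, (∀ k ∈ (W : Set V), ¬ con l r A k x) ↔ Disjoint (cls (con l r A) x) W := by
    intro x
    rw [disjoint_left]
    constructor
    · intro h k hk hkW
      exact h k hkW ((con l r A).symm (mem_cls.1 hk))
    · intro h k hk hkx
      exact h (mem_cls.2 ((con l r A).symm hkx)) hk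
  have h2 : ∀ x, (∀ k ∈ (W : Set V), ¬ con l r A k x) →
      cls (joined l r W A) x = cls (con l r A) x := by
    intro x hx
    ext y
    rw [mem_cls, mem_cls, joined_iff]
    constructor
    · rintro (h | ⟨⟨u, hu, h⟩, _⟩)
      · exact h
      · exact absurd ((con l r A).symm h) (hx u hu)
    · exact Or.inl
  have h3 : miss (W : Set V) (con l r A) = F.card := by
    refine ncard_eq_of_cls _ _ _ (fun x => ?_) fun C hC => ?_
    · rw [mem_missSet, h1, hF, mem_filter]
      exact ⟨fun h => ⟨mem_image_of_mem _ (mem_univ x), h⟩, fun h => h.2⟩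
    · obtain ⟨x, _, rfl⟩ := mem_image.1 (mem_filter.1 hC).1
      exact ⟨x, rfl⟩
  rw [h3]
  refine ncard_eq_of_cls _ _ _ (fun x => ?_) fun C hC => ?_
  · rw [mem_missSet]
    constructor
    · intro h
      have h4 : ∀ k ∈ (W : Set V), ¬ con l r A k x := fun k hk hkx =>
        h k hk (con_le_joined W A hkx)
      rw [h2 x h4, hF, mem_filter]
      exact ⟨mem_image_of_mem _ (mem_univ x), (h1 x).1 h4⟩
    · intro h k hk hkx
      rw [hF, mem_filter] at h
      exact disjoint_left.1 h.2 (mem_cls.2 ((joined l r W A).symm hkx)) hk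
  · obtain ⟨x, _, rfl⟩ := mem_image.1 (mem_filter.1 hC).1
    exact ⟨x, (h2 x ((h1 x).2 (mem_filter.1 hC).2)).symm⟩

open Classical in
theorem comps_eq (W : Finset V) (A : Finset E) :
    comps l r W A = miss (W : Set V) (con l r A) + if W.Nonempty then 1 else 0 := by
  rw [comps, card_quotient_eq (joined l r W A) (W : Set V), miss_joined]
  congr 1
  split_ifs with h
  · obtain ⟨x, hx⟩ := h
    rw [meet, Set.ncard_eq_one]
    refine ⟨Quotient.mk _ x, ?_⟩
    ext c
    constructor
    · rintro ⟨y, hy, rfl⟩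
      exact Quotient.sound (joined_wired hy hx)
    · rintro rfl
      exact ⟨x, hx, rfl⟩
  · rw [meet, Set.ncard_eq_zero (Set.toFinite _), Set.eq_empty_iff_forall_notMem]
    rintro c ⟨y, hy, _⟩
    exact h ⟨y, hy⟩

variable [Fintype E] [DecidableEq E]

/-- the odds of the edges -/
noncomputable def odds (p : E → ℝ) (e : E) : ℝ := p e / (1 - p e)

omit [Fintype V] [DecidableEq V] in
theorem prod_eq_odds {p : E → ℝ} (hp : ∀ e, p e < 1) (A : Finset E) :
    (∏ e ∈ A, p e) * (∏ e ∈ Aᶜ, (1 - p e)) = (∏ e : E, (1 - p e)) * ∏ e ∈ A, odds p e := by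
  rw [← prod_mul_prod_compl A (fun e => 1 - p e), mul_right_comm, ← prod_mul_distrib]
  congr 1
  refine prod_congr rfl fun e _ => ?_
  have : 1 - p e ≠ 0 := by linarith [hp e]
  rw [odds, mul_div_cancel₀ _ this]

theorem weight_eq {p : E → ℝ} (hp : ∀ e, p e < 1) (q : ℝ) (W : Finset V) (A : Finset E) :
    weight l r p q W A = ((∏ e : E, (1 - p e)) * q ^ (if W.Nonempty then 1 else 0)) *
      ((∏ e ∈ A, odds p e) * q ^ miss (W : Set V) (con l r A)) := by
  classical
  rw [weight, prod_eq_odds hp, comps_eq, pow_add]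
  have : (if W.Nonempty then 1 else 0 : ℕ) = @ite ℕ W.Nonempty (Classical.propDecidable _) 1 0 := by
    split_ifs <;> rfl
  rw [this]
  ring

omit [Fintype V] [DecidableEq V] [Fintype E] [DecidableEq E] in
theorem odds_nonneg {p : E → ℝ} (hp0 : ∀ e, 0 ≤ p e) (hp : ∀ e, p e < 1) (e : E) :
    0 ≤ odds p e := div_nonneg (hp0 e) (by linarith [hp e])

open Classical in
/-- the probability that the wired cluster misses `T`, in terms of the sums `fk` -/
theorem prob_miss_eq {p : E → ℝ} (hp : ∀ e, p e < 1) {q : ℝ} (hq : 0 < q) (W T : Finset V) :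
    prob l r p q W (fun A => ¬ Hits l r W T A) =
      fk l r (odds p) q T Wᶜ / fk l r (odds p) q ∅ Wᶜ := by
  set c := (∏ e : E, (1 - p e)) * q ^ (if W.Nonempty then 1 else 0) with hc
  have hc0 : c ≠ 0 := by
    refine mul_ne_zero (prod_ne_zero_iff.2 fun e _ => ?_) (pow_ne_zero _ hq.ne')
    linarith [hp e]
  have h1 : (∑ A, @ite ℝ (¬ Hits l r W T A) (Classical.propDecidable _)
      (weight l r p q W A) 0) = c * fk l r (odds p) q T Wᶜ := by
    rw [fk, mul_sum]
    refine sum_congr rfl fun A _ => ?_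
    rw [weight_eq hp, val, compl_compl]
    by_cases h : Hits l r W T A
    · have h' : ∃ t ∈ T, ∃ y, y ∉ Wᶜ ∧ con l r A t y := by
        obtain ⟨t, ht, y, hy, h2⟩ := hits_iff.1 h
        exact ⟨t, ht, y, by simpa using hy, h2⟩
      rw [if_neg (not_not_intro h), if_pos h', mul_zero, mul_zero]
    · have h' : ¬ ∃ t ∈ T, ∃ y, y ∉ Wᶜ ∧ con l r A t y := by
        rintro ⟨t, ht, y, hy, h2⟩
        exact h (hits_iff.2 ⟨t, ht, y, by simpa using hy, h2⟩)
      rw [if_pos h, if_neg h']
  have h2 : (∑ A, weight l r p q W A) = c * fk l r (odds p) q ∅ Wᶜ := by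
    rw [fk, mul_sum]
    refine sum_congr rfl fun A _ => ?_
    have h3 : ¬ ∃ t ∈ (∅ : Finset V), ∃ y, y ∉ Wᶜ ∧ con l r A t y := by
      rintro ⟨t, ht, _⟩
      exact absurd ht (notMem_empty t)
    rw [weight_eq hp, val, compl_compl, if_neg h3]
  rw [prob, h1, h2, mul_div_mul_left _ _ hc0]

/-- **The hitting probabilities of the wired cluster are an infinitely alternating capacity**:
there is one probability distribution `π` on the sets of vertices such that, for all wired sets `W`,
the cluster of `W` misses `T` with the probability that a `π`-random set is disjoint from `W`. -/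
theorem exists_random_set {p : E → ℝ} (hp0 : ∀ e, 0 ≤ p e) (hp : ∀ e, p e < 1) {q : ℝ}
    (hq : 0 < q) (hq1 : q ≤ 1) (T : Finset V) :
    ∃ π : Finset V → ℝ, (∀ R, 0 ≤ π R) ∧ ∑ R, π R = 1 ∧
      ∀ W, prob l r p q W (fun A => ¬ Hits l r W T A) =
        ∑ R ∈ univ.filter (fun R => Disjoint R W), π R := by
  obtain ⟨π, h0, h1⟩ := tmon_fk (a := l) (b := r) hq hq1 (odds_nonneg hp0 hp) T
  have h2 : ∀ W : Finset V, prob l r p q W (fun A => ¬ Hits l r W T A) =
      ∑ R ∈ univ.filter (fun R => Disjoint R W), π R := by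
    intro W
    have h5 := h1 Wᶜ (subset_univ _)
    beta_reduce at h5
    rw [prob_miss_eq hp hq, h5]
    refine sum_congr ?_ fun _ _ => rfl
    ext R
    rw [mem_powerset, mem_filter, subset_compl_iff_disjoint_right]
    simp
  refine ⟨π, h0, ?_, h2⟩
  have h3 := h2 ∅
  simp only [disjoint_empty_right, filter_true] at h3
  rw [← h3, prob_miss_eq hp hq, compl_empty]
  have h4 : fk l r (odds p) q T univ = fk l r (odds p) q ∅ univ := by
    rw [fk, fk]
    refine sum_congr rfl fun A _ => ?_
    rw [val, val, if_neg, if_neg]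
    · rintro ⟨t, _, y, hy, _⟩; exact hy (mem_univ y)
    · rintro ⟨t, _, y, hy, _⟩; exact hy (mem_univ y)
  rw [h4, div_self (fk_pos hq (odds_nonneg hp0 hp) _).ne']

end comp

end Vale.Agent.P167.R2.H68
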