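import Mathlib

/-!
# P167: sign of random-cluster sums with a negative cluster weight

For an equivalence relation `ξ` on a finite vertex set, a finite set `E` of edges, weights
`v e ≥ s ≥ 0` on the edges, `q ≥ 0` and a set `K` of vertices, the sum over `A ⊆ E` of
`v^A q^(classes of ξ ∨ A meeting K) (-s)^(other classes)` has the sign `(-1)^(classes of ξ ∨ E
missing K)`.
-/

namespace Vale.Agent.P167.R2.H68

open Finset

variable {V : Type*}

/-- the equivalence relation generated by `s` and `x ~ y` -/
def merge (s : Setoid V) (x y : V) : Setoid V where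
  r u v := s u v ∨ (s u x ∧ s y v) ∨ (s u y ∧ s x v)
  iseqv := by
    refine ⟨fun u => Or.inl (s.refl u), ?_, ?_⟩
    · rintro u v (h | ⟨h1, h2⟩ | ⟨h1, h2⟩)
      · exact Or.inl (s.symm h)
      · exact Or.inr (Or.inr ⟨s.symm h2, s.symm h1⟩)
      · exact Or.inr (Or.inl ⟨s.symm h2, s.symm h1⟩)
    · rintro u v w (h | ⟨h1, h2⟩ | ⟨h1, h2⟩) (h' | ⟨h3, h4⟩ | ⟨h3, h4⟩)
      · exact Or.inl (s.trans h h')
      · exact Or.inr (Or.inl ⟨s.trans h h3, h4⟩)
      · exact Or.inr (Or.inr ⟨s.trans h h3, h4⟩)
      · exact Or.inr (Or.inl ⟨h1, s.trans h2 h'⟩)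
      · exact Or.inr (Or.inl ⟨h1, h4⟩)
      · exact Or.inl (s.trans h1 h4)
      · exact Or.inr (Or.inr ⟨h1, s.trans h2 h'⟩)
      · exact Or.inl (s.trans h1 h4)
      · exact Or.inr (Or.inr ⟨h1, h4⟩)

theorem merge_apply {s : Setoid V} {x y u v : V} :
    merge s x y u v ↔ s u v ∨ (s u x ∧ s y v) ∨ (s u y ∧ s x v) := Iff.rfl

/-- the equivalence relation generated by one pair -/
def edge (x y : V) : Setoid V := merge ⊥ x y

theorem le_merge (s : Setoid V) (x y : V) : s ≤ merge s x y := fun _ _ h => Or.inl h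

theorem merge_self (s : Setoid V) (x y : V) : merge s x y x y :=
  Or.inr (Or.inl ⟨s.refl x, s.refl y⟩)

theorem edge_self (x y : V) : edge x y x y := merge_self _ _ _

theorem edge_le_iff {s : Setoid V} {x y : V} : edge x y ≤ s ↔ s x y := by
  refine ⟨fun h => h (edge_self x y), fun h u v huv => ?_⟩
  rcases huv with h1 | ⟨h1, h2⟩ | ⟨h1, h2⟩
  · rw [Setoid.bot_def] at h1; subst h1; exact s.refl u
  · rw [Setoid.bot_def] at h1 h2; subst h1; subst h2; exact h
  · rw [Setoid.bot_def] at h1 h2; subst h1; subst h2; exact s.symm h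

theorem merge_eq (s : Setoid V) (x y : V) : merge s x y = s ⊔ edge x y := by
  refine le_antisymm ?_ (sup_le (le_merge s x y) (edge_le_iff.2 (merge_self s x y)))
  have h1 : s ≤ s ⊔ edge x y := le_sup_left
  have h2 : (s ⊔ edge x y) x y := edge_le_iff.1 le_sup_right
  intro u v huv
  rcases huv with h | ⟨h3, h4⟩ | ⟨h3, h4⟩
  · exact h1 h
  · exact (s ⊔ edge x y).trans (h1 h3) ((s ⊔ edge x y).trans h2 (h1 h4))
  · exact (s ⊔ edge x y).trans (h1 h3)
      ((s ⊔ edge x y).trans ((s ⊔ edge x y).symm h2) (h1 h4))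

theorem merge_comm (s : Setoid V) (x y : V) : merge s x y = merge s y x := by
  ext u v
  rw [merge_apply, merge_apply]
  tauto

theorem merge_eq_self {s : Setoid V} {x y : V} (h : s x y) : merge s x y = s := by
  rw [merge_eq]
  exact sup_eq_left.2 (edge_le_iff.2 h)

/-- the classes of `s` that contain no point of `K` -/
def missSet (K : Set V) (s : Setoid V) : Set (Quotient s) := {c | ∀ x ∈ K, Quotient.mk s x ≠ c}

/-- the classes of `s` that contain a point of `K` -/
def meetSet (K : Set V) (s : Setoid V) : Set (Quotient s) := {c | ∃ x ∈ K, Quotient.mk s x = c}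

/-- the number of classes of `s` that contain no point of `K` -/
noncomputable def miss (K : Set V) (s : Setoid V) : ℕ := (missSet K s).ncard

/-- the number of classes of `s` that contain a point of `K` -/
noncomputable def meet (K : Set V) (s : Setoid V) : ℕ := (meetSet K s).ncard

/-- the map between the sets of classes -/
def qmap (s : Setoid V) (x y : V) : Quotient s → Quotient (merge s x y) :=
  Quotient.lift (fun u => Quotient.mk (merge s x y) u)
    fun _ _ h => Quotient.sound (le_merge s x y h)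

theorem mem_missSet {K : Set V} {s : Setoid V} {u : V} :
    Quotient.mk s u ∈ missSet K s ↔ ∀ k ∈ K, ¬ s k u :=
  ⟨fun h k hk hku => h k hk (Quotient.sound hku), fun h k hk hku => h k hk (Quotient.exact hku)⟩

theorem mem_meetSet {K : Set V} {s : Setoid V} {u : V} :
    Quotient.mk s u ∈ meetSet K s ↔ ∃ k ∈ K, s k u :=
  ⟨fun ⟨k, hk, h⟩ => ⟨k, hk, Quotient.exact h⟩, fun ⟨k, hk, h⟩ => ⟨k, hk, Quotient.sound h⟩⟩

/-- merging a class without points of `K` with another class -/
theorem merge_miss [Finite V] {K : Set V} {s : Setoid V} {x y : V} (hxy : ¬ s x y)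
    (hx : ∀ k ∈ K, ¬ s k x) :
    miss K s = miss K (merge s x y) + 1 ∧ meet K s = meet K (merge s x y) := by
  have hinj : Set.InjOn (qmap s x y) {c | c ≠ Quotient.mk s x} := by
    rintro ⟨u⟩ hu ⟨v⟩ hv huv
    have hu' : ¬ s u x := fun h => hu (Quotient.sound h)
    have hv' : ¬ s v x := fun h => hv (Quotient.sound h)
    rcases Quotient.exact huv with h | ⟨h1, h2⟩ | ⟨h1, h2⟩
    · exact Quotient.sound h
    · exact absurd h1 hu'
    · exact absurd (s.symm h2) hv'
  constructor
  · have h1 : missSet K (merge s x y) = qmap s x y '' (missSet K s \ {Quotient.mk s x}) := by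
      ext c'
      constructor
      · induction c' using Quotient.ind with | _ v => ?_
        intro hv
        rw [mem_missSet] at hv
        by_cases hvx : s v x
        · refine ⟨Quotient.mk s y, ⟨?_, fun h => hxy (s.symm (Quotient.exact h))⟩, ?_⟩
          · rw [mem_missSet]
            intro k hk hky
            exact hv k hk (Or.inr (Or.inr ⟨hky, s.symm hvx⟩))
          · exact Quotient.sound (Or.inr (Or.inr ⟨s.refl y, s.symm hvx⟩))
        · refine ⟨Quotient.mk s v, ⟨?_, fun h => hvx (Quotient.exact h)⟩, rfl⟩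
          rw [mem_missSet]
          intro k hk hkv
          exact hv k hk (Or.inl hkv)
      · rintro ⟨c, hc, rfl⟩
        induction c using Quotient.ind with | _ u => ?_
        have hu : ∀ k ∈ K, ¬ s k u := mem_missSet.1 hc.1
        have hux : ¬ s u x := fun h => hc.2 (Quotient.sound h)
        show Quotient.mk (merge s x y) u ∈ _
        rw [mem_missSet]
        rintro k hk (h | ⟨h1, h2⟩ | ⟨h1, h2⟩)
        · exact hu k hk h
        · exact hx k hk h1
        · exact hux (s.symm h2)
    have hxm : Quotient.mk s x ∈ missSet K s := mem_missSet.2 hx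
    rw [miss, miss, h1, (hinj.mono fun c hc => hc.2).ncard_image,
      Set.ncard_sdiff_singleton_add_one hxm (Set.toFinite _)]
  · have h1 : meetSet K (merge s x y) = qmap s x y '' (meetSet K s) := by
      ext c'
      constructor
      · rintro ⟨k, hk, rfl⟩
        exact ⟨Quotient.mk s k, ⟨k, hk, rfl⟩, rfl⟩
      · rintro ⟨c, ⟨k, hk, rfl⟩, rfl⟩
        exact ⟨k, hk, rfl⟩
    have h2 : Set.InjOn (qmap s x y) (meetSet K s) := by
      refine hinj.mono ?_
      rintro c ⟨k, hk, rfl⟩ h
      exact hx k hk (Quotient.exact h)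
    rw [meet, meet, h1, h2.ncard_image]

/-- merging two classes with points of `K` -/
theorem merge_meet {K : Set V} {s : Setoid V} {x y : V}
    (hx : ∃ k ∈ K, s k x) (hy : ∃ k ∈ K, s k y) : miss K (merge s x y) = miss K s := by
  obtain ⟨k1, hk1, h1⟩ := hx
  obtain ⟨k2, hk2, h2⟩ := hy
  have h3 : missSet K (merge s x y) = qmap s x y '' (missSet K s) := by
    ext c'
    constructor
    · induction c' using Quotient.ind with | _ v => ?_
      intro hv
      rw [mem_missSet] at hv
      exact ⟨Quotient.mk s v, mem_missSet.2 fun k hk hkv => hv k hk (Or.inl hkv), rfl⟩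
    · rintro ⟨c, hc, rfl⟩
      induction c using Quotient.ind with | _ u => ?_
      have hu : ∀ k ∈ K, ¬ s k u := mem_missSet.1 hc
      show Quotient.mk (merge s x y) u ∈ _
      rw [mem_missSet]
      rintro k hk (h | ⟨h3, h4⟩ | ⟨h3, h4⟩)
      · exact hu k hk h
      · exact hu k2 hk2 (s.trans h2 h4)
      · exact hu k1 hk1 (s.trans h1 h4)
  have h6 : Set.InjOn (qmap s x y) (missSet K s) := by
    intro c hc c' hc' h
    induction c using Quotient.ind with | _ u => ?_
    induction c' using Quotient.ind with | _ v => ?_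
    have hu : ∀ k ∈ K, ¬ s k u := mem_missSet.1 hc
    rcases Quotient.exact h with h | ⟨h4, h5⟩ | ⟨h4, h5⟩
    · exact Quotient.sound h
    · exact absurd (s.trans h1 (s.symm h4)) (hu k1 hk1)
    · exact absurd (s.trans h2 (s.symm h4)) (hu k2 hk2)
  rw [miss, miss, h3, h6.ncard_image]

section sums

variable {ι : Type*} [DecidableEq ι]

/-- the equivalence relation generated by a set of edges -/
def con (a b : ι → V) (A : Finset ι) : Setoid V := A.sup fun e => edge (a e) (b e)

omit [DecidableEq ι] in
theorem con_empty (a b : ι → V) : con a b ∅ = ⊥ := sup_empty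

theorem con_insert (a b : ι → V) (e : ι) (A : Finset ι) :
    con a b (insert e A) = edge (a e) (b e) ⊔ con a b A := sup_insert

omit [DecidableEq ι] in
theorem con_mono (a b : ι → V) {A B : Finset ι} (h : A ⊆ B) : con a b A ≤ con a b B :=
  sup_mono h

/-- the random-cluster sum with weight `q` for the classes that meet `K` and `r` for the others -/
noncomputable def Zs (a b : ι → V) (v : ι → ℝ) (K : Set V) (q r : ℝ) (ξ : Setoid V)
    (E : Finset ι) : ℝ :=
  ∑ A ∈ E.powerset, (∏ e ∈ A, v e) * (q ^ meet K (ξ ⊔ con a b A) * r ^ miss K (ξ ⊔ con a b A))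

theorem Zs_insert (a b : ι → V) (v : ι → ℝ) (K : Set V) (q r : ℝ) (ξ : Setoid V) {e : ι}
    {E : Finset ι} (he : e ∉ E) :
    Zs a b v K q r ξ (insert e E) =
      Zs a b v K q r ξ E + v e * Zs a b v K q r (merge ξ (a e) (b e)) E := by
  rw [Zs, sum_powerset_insert he, Zs, Zs, mul_sum]
  congr 1
  refine sum_congr rfl fun A hA => ?_
  have heA : e ∉ A := fun h => he (mem_powerset.1 hA h)
  rw [prod_insert heA, con_insert, merge_eq, sup_assoc, mul_assoc]

/-- **Sign of the random-cluster sums** with a negative weight for the classes off `K`. -/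
theorem sign [Finite V] (a b : ι → V) {v : ι → ℝ} (K : Set V) {q s : ℝ} (hq : 0 ≤ q)
    (hs : 0 ≤ s) (E : Finset ι) (hv : ∀ e ∈ E, s ≤ v e) (ξ : Setoid V) :
    0 ≤ (-1) ^ miss K (ξ ⊔ con a b E) * Zs a b v K q (-s) ξ E := by
  induction E using Finset.induction_on generalizing ξ with
  | empty =>
    have h1 : Zs a b v K q (-s) ξ ∅ = q ^ meet K (ξ ⊔ con a b ∅) * (-s) ^ miss K (ξ ⊔ con a b ∅) := by
      simp [Zs]
    have h2 : ((-1 : ℝ) ^ miss K (ξ ⊔ con a b ∅)) * (-s) ^ miss K (ξ ⊔ con a b ∅) =
        s ^ miss K (ξ ⊔ con a b ∅) := by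
      rw [← mul_pow]; ring_nf
    rw [h1, mul_left_comm, h2]
    positivity
  | insert e E he ih =>
    have hvE : ∀ e' ∈ E, s ≤ v e' := fun e' he' => hv e' (mem_insert_of_mem he')
    have hve : s ≤ v e := hv e (mem_insert_self e E)
    have ih1 := ih hvE ξ
    have ih2 := ih hvE (merge ξ (a e) (b e))
    rw [Zs_insert a b v K q (-s) ξ he]
    set x := a e
    set y := b e
    set t := ξ ⊔ con a b E with ht
    have ht1 : merge ξ x y ⊔ con a b E = merge t x y := by
      rw [merge_eq, merge_eq, ht, sup_assoc, sup_assoc, sup_comm (edge x y)]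
    have ht2 : ξ ⊔ con a b (insert e E) = merge t x y := by
      rw [con_insert, merge_eq, ht, sup_assoc, sup_comm (edge (a e) (b e))]
    rw [ht2]
    rw [ht1] at ih2
    by_cases hxy : t x y
    · have h1 : merge t x y = t := merge_eq_self hxy
      rw [h1] at ih2 ⊢
      have h2 : 0 ≤ v e * ((-1) ^ miss K t * Zs a b v K q (-s) (merge ξ x y) E) :=
        mul_nonneg (hs.trans hve) ih2
      nlinarith
    by_cases hK : (∃ k ∈ K, t k x) ∧ (∃ k ∈ K, t k y)
    · have h1 : miss K (merge t x y) = miss K t := merge_meet hK.1 hK.2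
      rw [h1] at ih2 ⊢
      have h2 : 0 ≤ v e * ((-1) ^ miss K t * Zs a b v K q (-s) (merge ξ x y) E) :=
        mul_nonneg (hs.trans hve) ih2
      nlinarith
    · have h1 : Zs a b v K q (-s) ξ E = (-s) * Zs a b v K q (-s) (merge ξ x y) E := by
        rw [Zs, Zs, mul_sum]
        refine sum_congr rfl fun A hA => ?_
        have hAE : ξ ⊔ con a b A ≤ t := sup_le_sup_left (con_mono a b (mem_powerset.1 hA)) ξ
        have h2 : merge ξ x y ⊔ con a b A = merge (ξ ⊔ con a b A) x y := by
          rw [merge_eq, merge_eq, sup_assoc, sup_assoc, sup_comm (edge x y)]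
        have h3 : ¬ (ξ ⊔ con a b A) x y := fun h => hxy (hAE h)
        have h4 : miss K (ξ ⊔ con a b A) = miss K (merge (ξ ⊔ con a b A) x y) + 1 ∧
            meet K (ξ ⊔ con a b A) = meet K (merge (ξ ⊔ con a b A) x y) := by
          rcases not_and_or.1 hK with h | h
          · exact merge_miss h3 fun k hk hkx => h ⟨k, hk, hAE hkx⟩
          · rw [merge_comm]
            exact merge_miss (fun h' => h3 ((ξ ⊔ con a b A).symm h'))
              fun k hk hky => h ⟨k, hk, hAE hky⟩
        rw [h2, h4.1, h4.2, pow_succ]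
        ring
      rw [h1]
      have h2 : (-1) ^ miss K (merge t x y) * (-s * Zs a b v K q (-s) (merge ξ x y) E +
          v e * Zs a b v K q (-s) (merge ξ x y) E) =
          (v e - s) * ((-1) ^ miss K (merge t x y) * Zs a b v K q (-s) (merge ξ x y) E) := by
        ring
      rw [h2]
      exact mul_nonneg (sub_nonneg.2 hve) ih2

end sums

end Vale.Agent.P167.R2.H68
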