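import Mathlib

/-!
# P167: the subgraph of the square lattice induced by a set of vertices
-/

namespace Vale.Agent.P167.R2.H68.Gen

/-- The lattice edge `e` joins `e.1` and `nb e`, the neighbour of `e.1` to the right or above. -/
def nb (e : (ℤ × ℤ) × Bool) : ℤ × ℤ := e.1 + (if e.2 then (1, 0) else (0, 1))

/-- The lattice edges with both ends in `Ω`. -/
abbrev SqEdge (Ω : Set (ℤ × ℤ)) : Type := {e : (ℤ × ℤ) × Bool // e.1 ∈ Ω ∧ nb e ∈ Ω}

/-- The first end of an edge. -/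
def sql (Ω : Set (ℤ × ℤ)) (e : SqEdge Ω) : Ω := ⟨e.1.1, e.2.1⟩

/-- The second end of an edge. -/
def sqr (Ω : Set (ℤ × ℤ)) (e : SqEdge Ω) : Ω := ⟨nb e.1, e.2.2⟩

end Vale.Agent.P167.R2.H68.Gen
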