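import Vale.Agent.P167.R2.H68.Cov
import Vale.Agent.P167.R2.H68.Sq

/-!
# P167: local finiteness of the square lattice
-/

namespace Vale.Agent.P167.R2.H68.Gen

open Finset

theorem touch_finite (Ω : Set (ℤ × ℤ)) (D : Finset Ω) :
    {e : SqEdge Ω | sql Ω e ∈ D ∨ sqr Ω e ∈ D}.Finite := by
  classical
  set D' : Finset (ℤ × ℤ) := D.image Subtype.val with hD'
  set B : Finset ((ℤ × ℤ) × Bool) :=
    (D' ∪ (D'.image (fun x => x - (1, 0)) ∪ D'.image (fun x => x - (0, 1)))) ×ˢ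
      (Finset.univ : Finset Bool) with hB
  refine Set.Finite.subset (Set.Finite.preimage (f := fun e : SqEdge Ω => e.1)
    (Subtype.val_injective.injOn) B.finite_toSet) ?_
  rintro ⟨⟨x, b⟩, h1, h2⟩ he
  rw [Set.mem_preimage, mem_coe, hB, mem_product]
  refine ⟨?_, mem_univ _⟩
  rcases he with he | he
  · exact mem_union_left _ (mem_image_of_mem Subtype.val he)
  · have h3 : nb (x, b) ∈ D' := mem_image_of_mem Subtype.val he
    refine mem_union_right _ ?_
    cases b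
    · refine mem_union_right _ (mem_image.2 ⟨_, h3, ?_⟩)
      simp [nb]
    · refine mem_union_left _ (mem_image.2 ⟨_, h3, ?_⟩)
      simp [nb]

theorem exists_touch (Ω : Set (ℤ × ℤ)) : ∃ F : Finset Ω → Finset (SqEdge Ω),
    ∀ D e, e ∈ F D ↔ sql Ω e ∈ D ∨ sqr Ω e ∈ D :=
  ⟨fun D => (touch_finite Ω D).toFinset, fun D e => by rw [Set.Finite.mem_toFinset]; rfl⟩

theorem selfdual_param {q : ℝ} (hq : 0 < q) : 0 ≤ √q / (1 + √q) ∧ √q / (1 + √q) < 1 := by
  have h : 0 < √q := Real.sqrt_pos.2 hq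
  refine ⟨by positivity, ?_⟩
  rw [div_lt_one (by linarith)]
  linarith

end Vale.Agent.P167.R2.H68.Gen
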