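import Vale.Agent.P167.R2.H68.Inf

/-!
# P167: reduction of the infinite graph to finite ones
-/

namespace Vale.Agent.P167.R2.H68.Gen

open Finset
open Vale.Agent.P167.R2.H68 (con miss meet missSet meetSet mem_missSet mem_meetSet con_le_iff
  con_edge con_mem TMon mob sum_mob coeff_unique mob_eq fk val off off_nonneg fk_split fk_pos
  tmon_fk inside)

section transfer

variable {V E : Type*} {l r : E → V} {U : Finset V} {F : Finset E}

/-- ends in the finite graph -/
def lf (hF : ∀ e ∈ F, l e ∈ U ∧ r e ∈ U) (e : {e // e ∈ F}) : {x // x ∈ U} :=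
  ⟨l e.1, (hF e.1 e.2).1⟩

/-- ends in the finite graph -/
def rf (hF : ∀ e ∈ F, l e ∈ U ∧ r e ∈ U) (e : {e // e ∈ F}) : {x // x ∈ U} :=
  ⟨r e.1, (hF e.1 e.2).2⟩

/-- the embedding of edge sets -/
def up (F : Finset E) (A : Finset {e // e ∈ F}) : Finset E :=
  A.map (Function.Embedding.subtype _)

theorem mem_up {A : Finset {e // e ∈ F}} {e : E} : e ∈ up F A ↔ ∃ h : e ∈ F, ⟨e, h⟩ ∈ A := by
  rw [up, mem_map]
  constructor
  · rintro ⟨⟨e', h⟩, h1, rfl⟩
    exact ⟨h, h1⟩
  · rintro ⟨h, h1⟩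
    exact ⟨⟨e, h⟩, h1, rfl⟩

theorem up_subset (A : Finset {e // e ∈ F}) : up F A ⊆ F := fun _ h => (mem_up.1 h).1

theorem con_up_U (hF : ∀ e ∈ F, l e ∈ U ∧ r e ∈ U) {A : Finset {e // e ∈ F}} {u v : V}
    (h : con l r (up F A) u v) (hu : u ∈ U) : v ∈ U := by
  refine con_mem (R := (U : Set V)) (fun e he => ?_) h hu
  have := hF e (up_subset A he)
  exact iff_of_true this.1 this.2

theorem con_up (hF : ∀ e ∈ F, l e ∈ U ∧ r e ∈ U) (A : Finset {e // e ∈ F}) (x y : {x // x ∈ U}) :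
    con l r (up F A) x.1 y.1 ↔ con (lf hF) (rf hF) A x y := by
  constructor
  · intro h
    let c := con (lf hF) (rf hF) A
    let s : Setoid V :=
      { r := fun u v => u = v ∨ ∃ (hu : u ∈ U) (hv : v ∈ U), c ⟨u, hu⟩ ⟨v, hv⟩
        iseqv := by
          refine ⟨fun u => Or.inl rfl, ?_, ?_⟩
          · rintro u v (rfl | ⟨hu, hv, h⟩)
            · exact Or.inl rfl
            · exact Or.inr ⟨hv, hu, c.symm h⟩
          · rintro u v w (rfl | ⟨hu, hv, h⟩) (rfl | ⟨hv', hw, h'⟩)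
            · exact Or.inl rfl
            · exact Or.inr ⟨hv', hw, h'⟩
            · exact Or.inr ⟨hu, hv, h⟩
            · exact Or.inr ⟨hu, hw, c.trans h h'⟩ }
    have h1 : con l r (up F A) ≤ s := by
      rw [con_le_iff]
      intro e he
      obtain ⟨heF, heA⟩ := mem_up.1 he
      exact Or.inr ⟨(hF e heF).1, (hF e heF).2, con_edge heA⟩
    rcases h1 h with h2 | ⟨hu, hv, h2⟩
    · have : x = y := Subtype.ext h2
      rw [this]
    · exact h2
  · intro h
    have h1 : con (lf hF) (rf hF) A ≤ (con l r (up F A)).comap Subtype.val := by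
      rw [con_le_iff]
      intro e he
      exact con_edge (mem_up.2 ⟨e.2, he⟩)
    exact h1 h

variable [DecidableEq V]

theorem miss_up (hF : ∀ e ∈ F, l e ∈ U ∧ r e ∈ U) (A : Finset {e // e ∈ F}) {D : Finset V}
    (hD : D ⊆ U) : miss (D : Set V)ᶜ (con l r (up F A)) =
      miss (((D.subtype (· ∈ U))ᶜ : Finset {x // x ∈ U}) : Set {x // x ∈ U})
        (con (lf hF) (rf hF) A) := by
  let f : Quotient (con (lf hF) (rf hF) A) → Quotient (con l r (up F A)) :=
    Quotient.lift (fun x => Quotient.mk (con l r (up F A)) x.1)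
      fun x y h => Quotient.sound ((con_up hF A x y).2 h)
  have hinj : Function.Injective f := by
    rintro ⟨x⟩ ⟨y⟩ h
    exact Quotient.sound ((con_up hF A x y).1 (Quotient.exact h))
  have himg : missSet (D : Set V)ᶜ (con l r (up F A)) =
      f '' missSet (((D.subtype (· ∈ U))ᶜ : Finset {x // x ∈ U}) : Set {x // x ∈ U})
        (con (lf hF) (rf hF) A) := by
    ext c
    induction c using Quotient.ind with | _ u => ?_
    constructor
    · intro h
      rw [mem_missSet] at h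
      have huD : u ∈ D := by
        by_contra hcon
        exact h u hcon ((con l r (up F A)).refl u)
      refine ⟨Quotient.mk _ ⟨u, hD huD⟩, ?_, rfl⟩
      rw [mem_missSet]
      intro k hk hku
      have hk' : k ∉ D.subtype (· ∈ U) := mem_compl.1 hk
      rw [mem_subtype] at hk'
      exact h k.1 hk' ((con_up hF A k ⟨u, hD huD⟩).2 hku)
    · rintro ⟨c', hc', h⟩
      induction c' using Quotient.ind with | _ x => ?_
      rw [mem_missSet] at hc' ⊢
      have h2 : con l r (up F A) x.1 u := Quotient.exact h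
      intro k hk hku
      have h3 : con l r (up F A) x.1 k := (con l r (up F A)).trans h2 ((con l r (up F A)).symm hku)
      have hkU : k ∈ U := con_up_U hF h3 x.2
      refine hc' ⟨k, hkU⟩ ?_ ((con_up hF A ⟨k, hkU⟩ x).1 ((con l r (up F A)).symm h3))
      refine mem_compl.2 fun h4 => hk ?_
      exact mem_subtype.1 h4
  rw [miss, miss, himg, Set.ncard_image_of_injective _ hinj]

theorem valI_up (hF : ∀ e ∈ F, l e ∈ U ∧ r e ∈ U) (A : Finset {e // e ∈ F}) {D T : Finset V}
    (hD : D ⊆ U) (hT : T ⊆ U) (q : ℝ) : valI q T D (con l r (up F A)) =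
      val q (T.subtype (· ∈ U)) (D.subtype (· ∈ U)) (con (lf hF) (rf hF) A) := by
  have h1 : (∃ t ∈ T, ∃ y, y ∉ D ∧ con l r (up F A) t y) ↔
      ∃ t ∈ T.subtype (· ∈ U), ∃ y, y ∉ D.subtype (· ∈ U) ∧ con (lf hF) (rf hF) A t y := by
    constructor
    · rintro ⟨t, ht, y, hy, h⟩
      have hyU : y ∈ U := con_up_U hF h (hT ht)
      exact ⟨⟨t, hT ht⟩, mem_subtype.2 ht, ⟨y, hyU⟩, fun h2 => hy (mem_subtype.1 h2),
        (con_up hF A ⟨t, hT ht⟩ ⟨y, hyU⟩).1 h⟩
    · rintro ⟨t, ht, y, hy, h⟩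
      exact ⟨t.1, mem_subtype.1 ht, y.1, fun h2 => hy (mem_subtype.2 h2),
        (con_up hF A t y).2 h⟩
  rw [valI, val, miss_up hF A hD]
  by_cases h : ∃ t ∈ T, ∃ y, y ∉ D ∧ con l r (up F A) t y
  · rw [if_pos h, if_pos (h1.1 h)]
  · rw [if_neg h, if_neg fun h' => h (h1.2 h')]

omit [DecidableEq V] in
/-- sums over the subsets of `F` -/
theorem sum_up (F : Finset E) (g : Finset E → ℝ) :
    ∑ A ∈ F.powerset, g A = ∑ A : Finset {e // e ∈ F}, g (up F A) := by
  classical
  symm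
  refine sum_nbij' (fun A => up F A) (fun A => A.subtype (· ∈ F)) ?_ ?_ ?_ ?_ ?_
  · intro A _
    exact mem_powerset.2 (up_subset A)
  · intro A _
    exact mem_univ _
  · intro A _
    ext e
    rw [mem_subtype, mem_up]
    exact ⟨fun ⟨_, h⟩ => h, fun h => ⟨e.2, h⟩⟩
  · intro A hA
    ext e
    rw [mem_up]
    constructor
    · rintro ⟨h, h1⟩
      exact mem_subtype.1 h1
    · intro h
      exact ⟨mem_powerset.1 hA h, mem_subtype.2 h⟩
  · intro A _
    rfl

theorem fkI_eq (hF : ∀ e ∈ F, l e ∈ U ∧ r e ∈ U) {D T : Finset V}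
    (hD : D ⊆ U) (hT : T ⊆ U) (w : E → ℝ) (q : ℝ) :
    fkI l r w q F T D = fk (lf hF) (rf hF) (fun e : {e // e ∈ F} => w e.1) q
      (T.subtype (· ∈ U)) (D.subtype (· ∈ U)) := by
  rw [fkI, sum_up, fk]
  refine sum_congr rfl fun A _ => ?_
  rw [valI_up hF A hD hT, up, prod_map]
  rfl

end transfer

end Vale.Agent.P167.R2.H68.Gen
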