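import Vale.Agent.P167.R2.H68.Grp

/-!
# P167: the sign of the grouped sums
-/

namespace Vale.Agent.P167.R2.H68

open Finset

variable {V : Type*} [Fintype V] [DecidableEq V]

/-- the weight of a class: `q` if it meets `T`, `-s` otherwise -/
noncomputable def phi (q s : ℝ) (T : Finset V) (C : Finset V) : ℝ :=
  if Disjoint C T then -s else q

omit [DecidableEq V] in
theorem ncard_eq_of_cls (s : Setoid V) (P : Set (Quotient s)) (F : Finset (Finset V))
    (h1 : ∀ x, Quotient.mk s x ∈ P ↔ cls s x ∈ F) (h2 : ∀ C ∈ F, ∃ x, C = cls s x) :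
    P.ncard = F.card := by
  have h3 : ∀ x y : V, s x y → cls s x = cls s y := fun x y h => cls_eq_iff.2 h
  let f : Quotient s → Finset V := Quotient.lift (cls s) h3
  have hinj : Function.Injective f := by
    rintro ⟨x⟩ ⟨y⟩ hxy
    exact Quotient.sound (cls_eq_iff.1 hxy)
  have himg : f '' P = (F : Set (Finset V)) := by
    ext C
    constructor
    · rintro ⟨c, hc, rfl⟩
      induction c using Quotient.ind with | _ x => ?_
      exact (h1 x).1 hc
    · intro hC
      obtain ⟨x, rfl⟩ := h2 C hC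
      exact ⟨Quotient.mk s x, (h1 x).2 hC, rfl⟩
  rw [← Set.ncard_image_of_injective P hinj, himg, Set.ncard_coe_finset]

/-- the class weights as a product over the classes -/
theorem pow_meet_mul_pow_miss (s : Setoid V) (K : Finset V) (q r : ℝ) :
    q ^ meet (K : Set V) s * r ^ miss (K : Set V) s =
      ∏ C ∈ (univ : Finset V).image (cls s), (if Disjoint C K then r else q) := by
  rw [prod_ite, prod_const, prod_const, mul_comm]
  congr 2
  · refine ncard_eq_of_cls s _ _ (fun x => ?_) fun C hC => ?_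
    · rw [mem_missSet, mem_filter, disjoint_left]
      constructor
      · intro h
        exact ⟨mem_image_of_mem _ (mem_univ x), fun k hk hkK => h k hkK (s.symm (mem_cls.1 hk))⟩
      · rintro ⟨_, h⟩ k hk hkx
        exact h (mem_cls.2 (s.symm hkx)) hk
    · obtain ⟨x, _, rfl⟩ := mem_image.1 (mem_filter.1 hC).1
      exact ⟨x, rfl⟩
  · refine ncard_eq_of_cls s _ _ (fun x => ?_) fun C hC => ?_
    · rw [mem_meetSet, mem_filter, not_disjoint_iff]
      constructor
      · rintro ⟨k, hk, hkx⟩
        exact ⟨mem_image_of_mem _ (mem_univ x), k, mem_cls.2 (s.symm hkx), hk⟩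
      · rintro ⟨_, k, hk, hkK⟩
        exact ⟨k, hkK, s.symm (mem_cls.1 hk)⟩
    · obtain ⟨x, _, rfl⟩ := mem_image.1 (mem_filter.1 hC).1
      exact ⟨x, rfl⟩

variable {ι : Type*} [Fintype ι] [DecidableEq ι] {a b : ι → V}

omit [DecidableEq ι] in
/-- class weights with respect to `K = T ∪ Bᶜ` for edges inside `B` -/
theorem weight_split {B T : Finset V} {A : Finset ι} (hA : A ⊆ ins a b B)
    (q s : ℝ) :
    q ^ meet ((T ∪ Bᶜ : Finset V) : Set V) (con a b A) *
        (-s) ^ miss ((T ∪ Bᶜ : Finset V) : Set V) (con a b A) =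
      prodCls (phi q s T) (con a b A) B * q ^ (Bᶜ).card := by
  have hin : ∀ e ∈ A, a e ∈ (B : Set V) ∧ b e ∈ (B : Set V) := fun e he => mem_ins.1 (hA he)
  have hiff : ∀ e ∈ A, (a e ∈ (B : Set V) ↔ b e ∈ (B : Set V)) := fun e he =>
    iff_of_true (hin e he).1 (hin e he).2
  have hsub : ∀ x ∈ B, cls (con a b A) x ⊆ B := by
    intro x hx y hy
    exact con_mem hiff (mem_cls.1 hy) hx
  have hout : ∀ x ∉ B, cls (con a b A) x = {x} := by
    intro x hx
    ext y
    rw [mem_cls, mem_singleton]
    constructor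
    · intro h
      -- the relation `u = v` or both in `B`
      have h2 : con a b A ≤ inside (B : Set V)ᶜ ⊥ := by
        rw [con_le_iff]
        intro e he
        exact Or.inr ⟨not_not_intro (hin e he).1, not_not_intro (hin e he).2⟩
      rcases h2 h with h3 | h3
      · have h4 := h3.2.2
        rw [Setoid.bot_def] at h4
        exact h4.symm
      · exact absurd hx h3.1
    · rintro rfl
      exact (con a b A).refl _
  rw [pow_meet_mul_pow_miss]
  have h1 : (univ : Finset V) = B ∪ Bᶜ := by rw [union_compl]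
  rw [h1]
  have h2 := prodCls_union (φ := fun C => if Disjoint C (T ∪ Bᶜ) then -s else q)
    (s := con a b A) (R := B) (R' := Bᶜ) (by
      intro x hx y hy hxy
      exact (mem_compl.1 hy) (con_mem hiff hxy hx))
  rw [prodCls] at h2
  rw [h2]
  congr 1
  · rw [prodCls, prodCls]
    refine prod_congr rfl fun C hC => ?_
    obtain ⟨x, hx, rfl⟩ := mem_image.1 hC
    have h3 : Disjoint (cls (con a b A) x) (T ∪ Bᶜ) ↔ Disjoint (cls (con a b A) x) T := by
      rw [disjoint_union_right]
      refine ⟨fun h => h.1, fun h => ⟨h, ?_⟩⟩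
      exact disjoint_compl_right.mono_left (hsub x hx)
    rw [phi]
    simp only [h3]
  · rw [prodCls]
    have h3 : (Bᶜ).image (cls (con a b A)) = (Bᶜ).image (fun x => ({x} : Finset V)) :=
      image_congr fun x hx => hout x (mem_compl.1 hx)
    rw [h3, prod_image (fun x _ y _ h => singleton_injective h), prod_congr rfl, prod_const]
    intro x hx
    rw [if_neg]
    rw [not_disjoint_iff]
    exact ⟨x, mem_singleton_self x, mem_union_right _ hx⟩

/-- the sum over the subsets `A` of `H` -/
noncomputable def gH (a b : ι → V) (v : ι → ℝ) (φ : Finset V → ℝ) (B : Finset V)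
    (H : Finset ι) : ℝ :=
  ∑ A ∈ H.powerset, (∏ e ∈ A, v e) * prodCls φ (con a b A) B

omit [DecidableEq ι] in
theorem gH_eq {v : ι → ℝ} {B T : Finset V} {H : Finset ι} (hH : H ⊆ ins a b B)
    (q s : ℝ) :
    Zs a b v ((T ∪ Bᶜ : Finset V) : Set V) q (-s) ⊥ H =
      gH a b v (phi q s T) B H * q ^ (Bᶜ).card := by
  rw [Zs, gH, sum_mul]
  refine sum_congr rfl fun A hA => ?_
  rw [bot_sup_eq, weight_split ((mem_powerset.1 hA).trans hH), mul_assoc]

/-- all classes inside `B` meet `T` -/
theorem gH_nonneg {v : ι → ℝ} {B T : Finset V} {H : Finset ι}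
    (hH : H ⊆ ins a b B) {q s : ℝ} (hq : 0 < q) (hs : 0 ≤ s) (hv : ∀ e, s ≤ v e)
    (hanch : Anch a b T B H) : 0 ≤ gH a b v (phi q s T) B H := by
  have h1 := sign a b ((T ∪ Bᶜ : Finset V) : Set V) hq.le hs H (fun e _ => hv e) ⊥
  have h2 : miss ((T ∪ Bᶜ : Finset V) : Set V) (⊥ ⊔ con a b H) = 0 := by
    rw [miss, Set.ncard_eq_zero (Set.toFinite _), Set.eq_empty_iff_forall_notMem, bot_sup_eq]
    intro c
    induction c using Quotient.ind with | _ x => ?_
    rw [mem_missSet]
    intro h
    by_cases hx : x ∈ B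
    · obtain ⟨t, ht, h3⟩ := hanch x hx
      exact h t (mem_union_left _ ht) h3
    · exact h x (mem_union_right _ (mem_compl.2 hx)) ((con a b H).refl x)
  rw [h2, pow_zero, one_mul, gH_eq hH] at h1
  exact nonneg_of_mul_nonneg_left h1 (pow_pos hq _)

/-- `B` is one class, no distinguished points -/
theorem gH_nonpos {v : ι → ℝ} {B : Finset V} (hB : B.Nonempty) {H : Finset ι}
    (hH : H ⊆ ins a b B) {q s : ℝ} (hq : 0 < q) (hs : 0 ≤ s) (hv : ∀ e, s ≤ v e)
    (hconn : ∀ x ∈ B, ∀ y ∈ B, con a b H x y) : gH a b v (phi q s ∅) B H ≤ 0 := by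
  have h1 := sign a b (((∅ : Finset V) ∪ Bᶜ : Finset V) : Set V) hq.le hs H (fun e _ => hv e) ⊥
  obtain ⟨x, hx⟩ := hB
  have hiff : ∀ e ∈ H, (a e ∈ (B : Set V) ↔ b e ∈ (B : Set V)) := fun e he =>
    iff_of_true (mem_ins.1 (hH he)).1 (mem_ins.1 (hH he)).2
  have h2 : miss (((∅ : Finset V) ∪ Bᶜ : Finset V) : Set V) (⊥ ⊔ con a b H) = 1 := by
    rw [miss, Set.ncard_eq_one, bot_sup_eq]
    refine ⟨Quotient.mk _ x, ?_⟩
    ext c
    induction c using Quotient.ind with | _ y => ?_
    rw [mem_missSet, Set.mem_singleton_iff]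
    constructor
    · intro h
      have hy : y ∈ B := by
        by_contra hy
        exact h y (mem_union_right _ (mem_compl.2 hy)) ((con a b H).refl y)
      exact Quotient.sound (hconn y hy x hx)
    · intro h k hk hky
      have h3 : con a b H y x := Quotient.exact h
      have h4 : con a b H x k := (con a b H).symm ((con a b H).trans hky h3)
      have h5 : k ∈ (B : Set V) := con_mem hiff h4 hx
      rcases mem_union.1 hk with h6 | h6
      · exact absurd h6 (notMem_empty k)
      · exact (mem_compl.1 h6) h5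
  rw [h2, pow_one, gH_eq hH] at h1
  have h3 : 0 ≤ (-gH a b v (phi q s ∅) B H) * q ^ (Bᶜ).card := by linarith
  have h4 := nonneg_of_mul_nonneg_left h3 (pow_pos hq _)
  linarith

end Vale.Agent.P167.R2.H68
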